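import Vale.Agent.P091.Phase

/-!
P091: the phase error is small on average for the weights `1 / |q - l|`.
-/

noncomputable section

namespace Vale.Agent.P091

open Finset

lemma sum_Ico_inv_le (L : ℕ) : ∑ k ∈ Ico (1 : ℕ) (2 ^ L), (1 / (k : ℝ)) ≤ L + 1 := by
  have h1 : ∑ k ∈ Ico (1 : ℕ) (2 ^ L), (1 / (k : ℝ)) ≤ ∑ k ∈ Icc (1 : ℕ) (2 ^ L), (1 / (k : ℝ)) :=
    Finset.sum_le_sum_of_subset_of_nonneg Finset.Ico_subset_Icc_self fun _ _ _ => by positivity
  have h2 : (∑ k ∈ Icc (1 : ℕ) (2 ^ L), (1 / (k : ℝ))) = (harmonic (2 ^ L) : ℝ) := by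
    rw [harmonic_eq_sum_Icc]; push_cast; simp [one_div]
  have h3 := harmonic_le_one_add_log (2 ^ L)
  push_cast at h3
  rw [Real.log_pow] at h3
  have h4 : (L : ℝ) * Real.log 2 ≤ L * 1 :=
    mul_le_mul_of_nonneg_left (by linarith [Real.log_two_lt_d9]) (by positivity)
  linarith

lemma eq_of_mod_eq_of_sub_lt {a b B : ℕ} (h : a % B = b % B) (hab : a ≤ b) (hlt : b - a < B) :
    a = b := by
  have := Nat.sub_mod_eq_zero_of_mod_eq h.symm
  rw [Nat.mod_eq_of_lt hlt] at this
  omega

lemma div_eq_imp_sub_lt {a b B : ℕ} (hB : 0 < B) (h : a / B = b / B) : a < b + B := by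
  have h1 := Nat.div_add_mod a B
  have h2 := Nat.div_add_mod b B
  have h3 := Nat.mod_lt a hB
  have h4 := Nat.mod_lt b hB
  rw [h] at h1
  omega

/-- Harmonic sum along a residue class. -/
lemma side_le {L P B v : ℕ} (hB : 0 < B) (hP : P < 2 ^ L) (s : Finset ℕ)
    (hv : ∀ p ∈ s, p % B = v) (hlt : ∀ p ∈ s, p < 2 ^ L) (hne : ∀ p ∈ s, p ≠ P)
    (hside : (∀ p ∈ s, p < P) ∨ (∀ p ∈ s, P < p)) :
    ∑ p ∈ s, 1 / (Nat.dist P p : ℝ) ≤ (if v = P % B then 0 else 1) + ((L : ℝ) + 1) / B := by
  set g : ℕ → ℝ := fun k => if k = 0 then (if v = P % B then 0 else 1) else 1 / ((B : ℝ) * k)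
    with hg
  have hg0 : ∀ k, 0 ≤ g k := fun k => by rw [hg]; dsimp only; split_ifs <;> positivity
  have hterm : ∀ p ∈ s, 1 / (Nat.dist P p : ℝ) ≤ g (Nat.dist P p / B) := by
    intro p hp
    have hd : 0 < Nat.dist P p := by
      have := hne p hp
      rw [Nat.dist]; omega
    rw [hg]; dsimp only
    split_ifs with hk hvw
    · exfalso
      have hlt' : Nat.dist P p < B := (Nat.div_eq_zero_iff_lt hB).1 hk
      have hm : p % B = P % B := by rw [hv p hp, hvw]
      rcases le_total p P with h | h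
      · rw [Nat.dist_eq_sub_of_le_right h] at hlt'
        exact hne p hp (eq_of_mod_eq_of_sub_lt hm h hlt')
      · rw [Nat.dist_eq_sub_of_le h] at hlt'
        exact hne p hp (eq_of_mod_eq_of_sub_lt hm.symm h hlt').symm
    · rw [div_le_one (by exact_mod_cast hd)]; exact_mod_cast hd
    · have hk1 : 0 < Nat.dist P p / B := Nat.pos_of_ne_zero hk
      apply one_div_le_one_div_of_le
      · positivity
      · exact_mod_cast Nat.mul_div_le (Nat.dist P p) B
  have hinj : Set.InjOn (fun p => Nat.dist P p / B) s := by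
    intro a ha b hb hab
    simp only at hab
    have h1 := div_eq_imp_sub_lt hB hab
    have h2 := div_eq_imp_sub_lt hB hab.symm
    have hm : a % B = b % B := by rw [hv a ha, hv b hb]
    rcases hside with hs | hs
    · have := hs a ha; have := hs b hb
      rw [Nat.dist_eq_sub_of_le_right (by omega), Nat.dist_eq_sub_of_le_right (by omega)] at h1 h2
      rcases le_total a b with h | h
      · exact eq_of_mod_eq_of_sub_lt hm h (by omega)
      · exact (eq_of_mod_eq_of_sub_lt hm.symm h (by omega)).symm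
    · have := hs a ha; have := hs b hb
      rw [Nat.dist_eq_sub_of_le (by omega), Nat.dist_eq_sub_of_le (by omega)] at h1 h2
      rcases le_total a b with h | h
      · exact eq_of_mod_eq_of_sub_lt hm h (by omega)
      · exact (eq_of_mod_eq_of_sub_lt hm.symm h (by omega)).symm
  calc ∑ p ∈ s, 1 / (Nat.dist P p : ℝ) ≤ ∑ p ∈ s, g (Nat.dist P p / B) := Finset.sum_le_sum hterm
    _ = ∑ k ∈ s.image (fun p => Nat.dist P p / B), g k := (Finset.sum_image hinj).symm
    _ ≤ ∑ k ∈ range (2 ^ L), g k := by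
        refine Finset.sum_le_sum_of_subset_of_nonneg ?_ fun k _ _ => hg0 k
        intro k hk
        obtain ⟨p, hp, rfl⟩ := Finset.mem_image.1 hk
        have h1 : Nat.dist P p < 2 ^ L := by
          have := hlt p hp
          rw [Nat.dist]; omega
        exact Finset.mem_range.2 ((Nat.div_le_self _ _).trans_lt h1)
    _ = g 0 + ∑ k ∈ Ico (1 : ℕ) (2 ^ L), g k := by
        rw [Finset.range_eq_Ico, Finset.sum_eq_sum_Ico_succ_bot (Nat.two_pow_pos L)]
    _ ≤ _ := by
        refine add_le_add (by simp [hg]) ?_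
        calc ∑ k ∈ Ico (1 : ℕ) (2 ^ L), g k = ∑ k ∈ Ico (1 : ℕ) (2 ^ L), (1 / (k : ℝ)) / B := by
              refine Finset.sum_congr rfl fun k hk => ?_
              have := (Finset.mem_Ico.1 hk).1
              rw [hg]; dsimp only; rw [if_neg (by omega), div_div, mul_comm]
          _ ≤ _ := by
              rw [← Finset.sum_div]; gcongr; exact sum_Ico_inv_le L

lemma geom_dist_le {x : ℝ} (hx0 : 0 ≤ x) (hx : x ≤ 1 / 2) (w B : ℕ) (hw : w < B) :
    ∑ v ∈ (range B).erase w, x ^ Nat.dist w v ≤ 4 * x := by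
  have hgeo : ∀ m, ∑ i ∈ Ico 1 m, x ^ i ≤ 2 * x := by
    intro m
    refine (geom_sum_Ico_le_of_lt_one hx0 (by linarith)).trans ?_
    rw [pow_one, div_le_iff₀ (by linarith)]
    nlinarith
  have hsplit : (range B).erase w = Ico 0 w ∪ Ico (w + 1) B := by
    ext v; simp only [mem_erase, mem_range, mem_union, mem_Ico]; omega
  have hdisj : Disjoint (Ico 0 w) (Ico (w + 1) B) := by
    rw [Finset.disjoint_left]; intro v hv hv'; simp only [mem_Ico] at hv hv'; omega
  rw [hsplit, Finset.sum_union hdisj]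
  have key : ∀ s : Finset ℕ, (∀ v ∈ s, Nat.dist w v ∈ Ico 1 (B + 1)) →
      Set.InjOn (fun v => Nat.dist w v) s → ∑ v ∈ s, x ^ Nat.dist w v ≤ 2 * x := by
    intro s hs hinj
    rw [← Finset.sum_image (f := fun i => x ^ i) hinj]
    refine le_trans ?_ (hgeo (B + 1))
    refine Finset.sum_le_sum_of_subset_of_nonneg ?_ fun i _ _ => pow_nonneg hx0 i
    intro i hi
    obtain ⟨v, hv, rfl⟩ := Finset.mem_image.1 hi
    exact hs v hv
  have h1 := key (Ico 0 w) (by intro v hv; simp only [mem_Ico, Nat.dist] at hv ⊢; omega)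
    (by intro a ha b hb h; simp only [coe_Ico, Set.mem_Ico, Nat.dist] at ha hb h; omega)
  have h2 := key (Ico (w + 1) B) (by intro v hv; simp only [mem_Ico, Nat.dist] at hv ⊢; omega)
    (by intro a ha b hb h; simp only [coe_Ico, Set.mem_Ico, Nat.dist] at ha hb h; omega)
  linarith

lemma dist_par_le {e q l : ℕ} (h : 2 ≤ Nat.dist (par e q) (par e l)) :
    2 ^ (e + 1) * Nat.dist (par e q) (par e l) ≤ 2 * Nat.dist q l := by
  unfold par at *
  set m := 2 ^ (e + 1) with hm
  have hm0 : 0 < m := by positivity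
  have h1 := Nat.div_add_mod q m
  have h2 := Nat.div_add_mod l m
  have h3 := Nat.mod_lt q hm0
  have h4 := Nat.mod_lt l hm0
  rcases le_total (q / m) (l / m) with hc | hc
  · rw [Nat.dist_eq_sub_of_le hc] at h ⊢
    obtain ⟨d, hd⟩ := Nat.exists_eq_add_of_le hc
    rw [hd, Nat.add_sub_cancel_left] at h ⊢
    rw [hd, mul_add] at h2
    have : 2 * m ≤ m * d := by rw [mul_comm]; exact Nat.mul_le_mul_left m h
    rw [Nat.dist]; omega
  · rw [Nat.dist_eq_sub_of_le_right hc] at h ⊢
    obtain ⟨d, hd⟩ := Nat.exists_eq_add_of_le hc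
    rw [hd, Nat.add_sub_cancel_left] at h ⊢
    rw [hd, mul_add] at h1
    have : 2 * m ≤ m * d := by rw [mul_comm]; exact Nat.mul_le_mul_left m h
    rw [Nat.dist]; omega

lemma level_err_le {L e q : ℕ} (he : e < L) (hq : q < 2 ^ L) :
    ∑ l ∈ (range (2 ^ L)).erase q, lerr L e q l / (Nat.dist q l : ℝ) ≤ 1 / 1024 := by
  classical
  set n := 2 ^ L with hn
  set B := bk L with hB
  set P := par e q with hP
  set w := P % B with hw
  set m : ℝ := (2 : ℝ) ^ (e + 1) with hm
  set x : ℝ := ((2 : ℝ) ^ 16)⁻¹ with hx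
  have hm0 : 0 < m := by positivity
  have hB0 : 0 < B := bk_pos L
  have hPn : P < n := (Nat.div_le_self _ _).trans_lt hq
  set g : ℕ → ℝ := fun p =>
    if P ≠ p ∧ P % 2 = p % 2 then x ^ Nat.dist w (p % B) * (2 / (Nat.dist P p : ℝ)) else 0 with hg
  have hg0 : ∀ p, 0 ≤ g p := fun p => by rw [hg]; dsimp only; split_ifs <;> positivity
  -- step A
  have hA : ∑ l ∈ (range n).erase q, lerr L e q l / (Nat.dist q l : ℝ) ≤ ∑ p ∈ range n, g p := by
    have ha : ∀ l ∈ (range n).erase q,
        lerr L e q l / (Nat.dist q l : ℝ) ≤ g (par e l) / m := by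
      intro l hl
      unfold lerr
      rw [hg]; dsimp only
      by_cases hc : par e q ≠ par e l ∧ par e q % 2 = par e l % 2
      · rw [if_pos hc, if_pos hc]
        have hd2 : 2 ≤ Nat.dist P (par e l) := by
          obtain ⟨c1, c2⟩ := hc
          rw [Nat.dist]; omega
        have hle := dist_par_le hd2
        have hle' : m * (Nat.dist P (par e l) : ℝ) ≤ 2 * Nat.dist q l := by
          rw [hm]; exact_mod_cast hle
        have hdpos' : 0 < Nat.dist P (par e l) := by omega
        have hdpos : 0 < (Nat.dist P (par e l) : ℝ) := Nat.cast_pos.2 hdpos'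
        have hqpos : 0 < (Nat.dist q l : ℝ) := by
          have := mul_pos hm0 hdpos
          linarith
        rw [hx, inv_pow, ← pow_mul, mul_div_assoc]
        rw [div_eq_mul_inv]
        refine mul_le_mul_of_nonneg_left ?_ (by positivity)
        rw [div_div, inv_eq_one_div, div_le_div_iff₀ hqpos (by positivity)]
        linarith
      · rw [if_neg hc, if_neg hc]; simp
    refine (Finset.sum_le_sum ha).trans ?_
    refine (Finset.sum_le_sum_of_subset_of_nonneg (Finset.erase_subset _ _)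
      fun l _ _ => div_nonneg (hg0 _) hm0.le).trans ?_
    rw [← Finset.sum_fiberwise_of_maps_to (s := range n) (t := range n) (g := par e)
      (fun l hl => Finset.mem_range.2 ((Nat.div_le_self _ _).trans_lt (Finset.mem_range.1 hl)))]
    refine Finset.sum_le_sum fun p _ => ?_
    rw [Finset.sum_congr rfl (g := fun _ => g p / m)
      (fun l hl => by rw [(Finset.mem_filter.1 hl).2]), Finset.sum_const, nsmul_eq_mul]
    have hcard : ((range n).filter fun l => par e l = p).card ≤ 2 ^ (e + 1) := by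
      refine (Finset.card_le_card (t := Ico (p * 2 ^ (e + 1)) (p * 2 ^ (e + 1) + 2 ^ (e + 1))) ?_).trans
        (by simp)
      intro l hl
      have h1 : l / 2 ^ (e + 1) = p := (Finset.mem_filter.1 hl).2
      have h2 := Nat.div_add_mod l (2 ^ (e + 1))
      have h3 := Nat.mod_lt l (Nat.two_pow_pos (e + 1))
      rw [h1, mul_comm] at h2
      simp only [mem_Ico]; omega
    have hcard' : (((range n).filter fun l => par e l = p).card : ℝ) ≤ m := by
      rw [hm]; exact_mod_cast hcard
    calc _ ≤ m * (g p / m) := mul_le_mul_of_nonneg_right hcard' (div_nonneg (hg0 p) hm0.le)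
      _ = g p := by field_simp
  -- step B
  have hB' : ∑ p ∈ range n, g p ≤ ∑ v ∈ range B,
      x ^ Nat.dist w v * (4 * ((if v = w then 0 else 1) + ((L : ℝ) + 1) / B)) := by
    rw [← Finset.sum_fiberwise_of_maps_to (s := range n) (t := range B) (g := fun p => p % B)
      (fun p _ => Finset.mem_range.2 (Nat.mod_lt _ hB0))]
    refine Finset.sum_le_sum fun v _ => ?_
    set s := ((range n).filter fun p => p % B = v).erase P with hs
    have h1 : ∑ p ∈ (range n).filter (fun p => p % B = v), g p ≤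
        ∑ p ∈ s, x ^ Nat.dist w v * (2 / (Nat.dist P p : ℝ)) := by
      rw [hs, ← Finset.sum_erase _ (f := g) (a := P) (by rw [hg]; simp)]
      refine Finset.sum_le_sum fun p hp => ?_
      have : p % B = v := (Finset.mem_filter.1 (Finset.mem_erase.1 hp).2).2
      rw [hg]; dsimp only
      rw [this]
      split_ifs
      · exact le_rfl
      · positivity
    refine h1.trans ?_
    rw [← Finset.mul_sum]
    refine mul_le_mul_of_nonneg_left ?_ (by rw [hx]; positivity)
    have hmem : ∀ p ∈ s, p ≠ P ∧ p < n ∧ p % B = v := by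
      intro p hp
      simp only [hs, mem_erase, mem_filter, mem_range] at hp
      exact ⟨hp.1, hp.2.1, hp.2.2⟩
    rw [← Finset.sum_filter_add_sum_filter_not s (fun p => p < P)]
    have ha := side_le (L := L) (P := P) (v := v) hB0 hPn (s.filter fun p => p < P)
      (fun p hp => (hmem p (mem_filter.1 hp).1).2.2) (fun p hp => (hmem p (mem_filter.1 hp).1).2.1)
      (fun p hp => (hmem p (mem_filter.1 hp).1).1) (Or.inl fun p hp => (mem_filter.1 hp).2)
    have hb := side_le (L := L) (P := P) (v := v) hB0 hPn (s.filter fun p => ¬ p < P)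
      (fun p hp => (hmem p (mem_filter.1 hp).1).2.2) (fun p hp => (hmem p (mem_filter.1 hp).1).2.1)
      (fun p hp => (hmem p (mem_filter.1 hp).1).1) (Or.inr fun p hp => by
        have := (mem_filter.1 hp).2
        have := (hmem p (mem_filter.1 hp).1).1
        omega)
    have e1 : ∀ t : Finset ℕ, ∑ p ∈ t, 2 / (Nat.dist P p : ℝ)
        = 2 * ∑ p ∈ t, 1 / (Nat.dist P p : ℝ) := by
      intro t; rw [Finset.mul_sum]; simp [div_eq_mul_inv]
    rw [e1, e1, ← hw] at *
    linarith
  refine hA.trans (hB'.trans ?_)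
  have hwB : w < B := Nat.mod_lt _ hB0
  have hS := geom_dist_le (x := x) (by positivity) (by rw [hx]; norm_num) w B hwB
  have hS0 : 0 ≤ ∑ v ∈ (range B).erase w, x ^ Nat.dist w v :=
    Finset.sum_nonneg fun v _ => by positivity
  rw [← Finset.add_sum_erase _ _ (Finset.mem_range.2 hwB), Nat.dist_self, pow_zero, one_mul,
    if_pos rfl, zero_add,
    Finset.sum_congr rfl (g := fun v => x ^ Nat.dist w v * (4 * (1 + ((L : ℝ) + 1) / B)))
      (fun v hv => by rw [if_neg (Finset.mem_erase.1 hv).1]), ← Finset.sum_mul]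
  have hb : ((L : ℝ) + 1) / B = 1 / 16384 := by
    rw [hB]; unfold bk; push_cast; field_simp
  rw [hb]
  calc _ ≤ 4 * (1 / 16384 : ℝ) + 4 * x * (4 * (1 + 1 / 16384)) := by gcongr
    _ ≤ _ := by rw [hx]; norm_num

lemma perr_avg_le {L q : ℕ} (hq : q < 2 ^ L) :
    ∑ l ∈ (range (2 ^ L)).erase q, perr L q l / (Nat.dist q l : ℝ) ≤ (L : ℝ) / 1024 + 1 := by
  simp only [perr, add_div, Finset.sum_add_distrib, Finset.sum_div]
  rw [Finset.sum_comm (s := (range (2 ^ L)).erase q) (t := range L), add_comm]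
  refine add_le_add ?_ ?_
  · refine (Finset.sum_le_sum (g := fun _ => (1 : ℝ) / 1024)
      fun e he => level_err_le (Finset.mem_range.1 he) hq).trans ?_
    simp; ring_nf; rfl
  · calc ∑ l ∈ (range (2 ^ L)).erase q, (L : ℝ) ^ 2 * tiny L / (Nat.dist q l : ℝ)
        ≤ ∑ _l ∈ (range (2 ^ L)).erase q, (L : ℝ) ^ 2 * tiny L := by
          refine Finset.sum_le_sum fun l hl => div_le_self (by unfold tiny; positivity) ?_
          have := (Finset.mem_erase.1 hl).1
          exact_mod_cast (by rw [Nat.dist]; omega : 1 ≤ Nat.dist q l)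
      _ ≤ (2 : ℝ) ^ L * ((L : ℝ) ^ 2 * tiny L) := by
          rw [Finset.sum_const, nsmul_eq_mul]
          refine mul_le_mul_of_nonneg_right ?_ (by unfold tiny; positivity)
          calc ((((range (2 ^ L)).erase q).card : ℕ) : ℝ) ≤ ((2 ^ L : ℕ) : ℝ) :=
                Nat.cast_le.2 (Finset.card_erase_le.trans_eq (Finset.card_range _))
            _ = _ := by push_cast; rfl
      _ ≤ 1 := by
          have h1 : 2 ^ L * L ^ 2 ≤ 2 ^ (16 * bk L) := by
            calc 2 ^ L * L ^ 2 ≤ 2 ^ L * (2 ^ L) ^ 2 :=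
                  Nat.mul_le_mul_left _ (Nat.pow_le_pow_left L.lt_two_pow_self.le 2)
              _ = 2 ^ (3 * L) := by rw [← pow_mul, ← pow_add]; ring_nf
              _ ≤ _ := Nat.pow_le_pow_right (by norm_num) (by unfold bk; omega)
          have h1' : (2 : ℝ) ^ L * (L : ℝ) ^ 2 ≤ (2 : ℝ) ^ (16 * bk L) := by exact_mod_cast h1
          unfold tiny
          rw [← mul_assoc, ← div_eq_mul_inv, div_le_one (by positivity)]
          exact h1'

lemma signal_le {L q : ℕ} (hL : 1 ≤ L) (hq : q < 2 ^ L) :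
    ((L : ℝ) - 1) * Real.log 2 ≤ ∑ l ∈ (range (2 ^ L)).erase q, 1 / (Nat.dist q l : ℝ) := by
  set h := 2 ^ (L - 1) with hh
  have hn : 2 ^ L = 2 * h := by rw [hh, ← pow_succ']; congr 1; omega
  have hH : ((L : ℝ) - 1) * Real.log 2 ≤ ∑ d ∈ Icc (1 : ℕ) h, 1 / (d : ℝ) := by
    have h1 := log_add_one_le_harmonic h
    rw [harmonic_eq_sum_Icc] at h1
    push_cast at h1
    have h2 : Real.log (h : ℝ) ≤ Real.log ((h : ℝ) + 1) :=
      Real.log_le_log (by rw [hh]; positivity) (by linarith)
    rw [hh] at h2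
    push_cast at h2
    rw [Real.log_pow, Nat.cast_sub hL] at h2
    push_cast at h2
    simp only [one_div]
    rw [hh] at h1 ⊢
    push_cast at h1 ⊢
    linarith
  refine hH.trans ?_
  by_cases hc : h ≤ q
  · have hinj : Set.InjOn (fun d => q - d) (Icc 1 h : Finset ℕ) := by
      intro a ha b hb hab; simp only [coe_Icc, Set.mem_Icc] at ha hb hab; omega
    calc ∑ d ∈ Icc (1 : ℕ) h, 1 / (d : ℝ) = ∑ d ∈ Icc 1 h, 1 / (Nat.dist q (q - d) : ℝ) := by
          refine Finset.sum_congr rfl fun d hd => ?_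
          simp only [mem_Icc] at hd
          rw [show Nat.dist q (q - d) = d by rw [Nat.dist]; omega]
      _ = ∑ l ∈ (Icc 1 h).image (fun d => q - d), 1 / (Nat.dist q l : ℝ) :=
          (Finset.sum_image (f := fun l => 1 / (Nat.dist q l : ℝ)) hinj).symm
      _ ≤ _ := by
          refine Finset.sum_le_sum_of_subset_of_nonneg ?_ fun _ _ _ => by positivity
          intro l hl
          obtain ⟨d, hd, rfl⟩ := Finset.mem_image.1 hl
          simp only [mem_Icc, mem_erase, mem_range] at hd ⊢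
          omega
  · have hinj : Set.InjOn (fun d => q + d) (Icc 1 h : Finset ℕ) := by
      intro a _ b _ hab; simp only at hab; omega
    calc ∑ d ∈ Icc (1 : ℕ) h, 1 / (d : ℝ) = ∑ d ∈ Icc 1 h, 1 / (Nat.dist q (q + d) : ℝ) := by
          refine Finset.sum_congr rfl fun d hd => ?_
          rw [show Nat.dist q (q + d) = d by rw [Nat.dist]; omega]
      _ = ∑ l ∈ (Icc 1 h).image (fun d => q + d), 1 / (Nat.dist q l : ℝ) :=
          (Finset.sum_image (f := fun l => 1 / (Nat.dist q l : ℝ)) hinj).symm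
      _ ≤ _ := by
          refine Finset.sum_le_sum_of_subset_of_nonneg ?_ fun _ _ _ => by positivity
          intro l hl
          obtain ⟨d, hd, rfl⟩ := Finset.mem_image.1 hl
          simp only [mem_Icc, mem_erase, mem_range] at hd ⊢
          omega

end Vale.Agent.P091
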