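import Mathlib

/-!
P091: the Dirichlet kernel, and partial sums of Fejér kernels.
-/

noncomputable section

namespace Vale.Agent.P091

open Finset Real

/-- `e y = exp (2 π i y)`. -/
def ee (y : ℝ) : ℂ := Complex.exp (((2 * π * y : ℝ) : ℂ) * Complex.I)

lemma ee_add (a b : ℝ) : ee (a + b) = ee a * ee b := by
  unfold ee; rw [← Complex.exp_add]; push_cast; ring_nf

lemma norm_ee (a : ℝ) : ‖ee a‖ = 1 := by
  unfold ee; exact Complex.norm_exp_ofReal_mul_I _

lemma ee_intCast (m : ℤ) : ee (m : ℝ) = 1 := by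
  unfold ee
  rw [Complex.exp_eq_one_iff]
  exact ⟨m, by push_cast; ring⟩

lemma ee_neg_conj (a : ℝ) : ee (-a) = starRingEnd ℂ (ee a) := by
  unfold ee
  rw [← Complex.exp_conj, map_mul, Complex.conj_ofReal, Complex.conj_I]
  push_cast; ring_nf

/-- The Dirichlet kernel. -/
def dk (N : ℕ) (y : ℝ) : ℂ := ∑ k ∈ Icc (-(N : ℤ)) N, ee ((k : ℝ) * y)

/-- The Dirichlet kernel as a real function. -/
def dkR (N : ℕ) (y : ℝ) : ℝ := 1 + 2 * ∑ i ∈ range N, Real.cos (2 * π * ((i : ℝ) + 1) * y)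

lemma dk_eq (N : ℕ) (y : ℝ) : dk N y = (dkR N y : ℂ) := by
  induction N with
  | zero => simp [dk, dkR, ee]
  | succ N ih =>
    have hset : Icc (-((N + 1 : ℕ) : ℤ)) ((N + 1 : ℕ) : ℤ)
        = insert ((N : ℤ) + 1) (insert (-((N : ℤ) + 1)) (Icc (-(N : ℤ)) N)) := by
      ext k; simp only [mem_insert, mem_Icc]; push_cast; omega
    unfold dk at ih ⊢
    rw [hset, Finset.sum_insert (by simp only [mem_insert, mem_Icc]; omega),
      Finset.sum_insert (by simp only [mem_Icc]; omega), ih, dkR, dkR, Finset.sum_range_succ]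
    push_cast
    rw [neg_mul, ee_neg_conj, ← add_assoc, Complex.add_conj]
    unfold ee
    rw [Complex.exp_ofReal_mul_I_re]
    push_cast
    ring_nf

lemma dkR_mul_sin (N : ℕ) (y : ℝ) :
    dkR N y * Real.sin (π * y) = Real.sin ((2 * (N : ℝ) + 1) * π * y) := by
  induction N with
  | zero => simp [dkR]
  | succ N ih =>
    have h : dkR (N + 1) y = dkR N y + 2 * Real.cos (2 * π * ((N : ℝ) + 1) * y) := by
      unfold dkR; rw [Finset.sum_range_succ]; ring
    rw [h, add_mul, ih]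
    push_cast
    have e1 : (2 * ((N : ℝ) + 1) + 1) * π * y = 2 * π * ((N : ℝ) + 1) * y + π * y := by ring
    have e2 : (2 * (N : ℝ) + 1) * π * y = 2 * π * ((N : ℝ) + 1) * y - π * y := by ring
    rw [e1, e2, Real.sin_add, Real.sin_sub]
    ring

lemma cot_sub_inv_le {z : ℝ} (hz : 0 < z) (hz' : z ≤ π / 2) :
    |Real.cos z / Real.sin z - 1 / z| ≤ 2 := by
  have hs : 2 / π * z ≤ Real.sin z := Real.mul_le_sin hz.le hz'
  have hs0 : 0 < Real.sin z := Real.sin_pos_of_pos_of_lt_pi hz (by linarith [Real.pi_pos])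
  have hc0 : 0 ≤ Real.cos z := Real.cos_nonneg_of_mem_Icc ⟨by linarith [Real.pi_pos], hz'⟩
  have hc : 1 - z ^ 2 / 2 ≤ Real.cos z := Real.one_sub_sq_div_two_le_cos
  have hsle : Real.sin z ≤ z := Real.sin_le hz.le
  have hlow : z * Real.cos z ≤ Real.sin z := by
    rcases eq_or_lt_of_le hz' with h | h
    · rw [h, Real.cos_pi_div_two, mul_zero, Real.sin_pi_div_two]; exact zero_le_one
    · have ht : z < Real.tan z := Real.lt_tan hz h
      have hcp : 0 < Real.cos z := Real.cos_pos_of_mem_Ioo ⟨by linarith [Real.pi_pos], h⟩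
      rw [Real.tan_eq_sin_div_cos, lt_div_iff₀ hcp] at ht
      linarith
  rw [div_sub_div _ _ hs0.ne' hz.ne', abs_div, abs_of_pos (mul_pos hs0 hz),
    div_le_iff₀ (mul_pos hs0 hz), abs_le]
  have hp1 : 1 / 2 ≤ 2 / π := by
    rw [div_le_div_iff₀ (by norm_num) Real.pi_pos]; linarith [Real.pi_le_four]
  have hz2 : z ≤ 2 := by linarith [Real.pi_le_four]
  constructor
  · nlinarith [mul_le_mul_of_nonneg_left hp1 hz.le, mul_nonneg hz.le hz.le]
  · nlinarith [mul_nonneg hs0.le hz.le]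

lemma dkR_approx (N : ℕ) {y : ℝ} (hy0 : y ≠ 0) (hy : |y| ≤ 1 / 2) :
    |dkR N y - Real.sin (2 * π * N * y) / (π * y)| ≤ 3 := by
  wlog hpos : 0 < y generalizing y with H
  · have hlt : y < 0 := lt_of_le_of_ne (not_lt.1 hpos) hy0
    have h := H (y := -y) (neg_ne_zero.2 hy0) (by rwa [abs_neg]) (neg_pos.2 hlt)
    have e : dkR N (-y) = dkR N y := by simp [dkR]
    rw [e, mul_neg, Real.sin_neg, mul_neg, neg_div_neg_eq] at h
    exact h
  rw [abs_of_pos hpos] at hy
  have hz0 : 0 < π * y := mul_pos Real.pi_pos hpos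
  have hz : π * y ≤ π / 2 := by nlinarith [Real.pi_pos]
  have hs0 : 0 < Real.sin (π * y) := Real.sin_pos_of_pos_of_lt_pi hz0 (by linarith [Real.pi_pos])
  have hD : dkR N y = Real.sin (2 * π * N * y) * (Real.cos (π * y) / Real.sin (π * y))
      + Real.cos (2 * π * N * y) := by
    have h := dkR_mul_sin N y
    rw [show (2 * (N : ℝ) + 1) * π * y = 2 * π * N * y + π * y by ring, Real.sin_add] at h
    field_simp
    linarith
  have e : dkR N y - Real.sin (2 * π * N * y) / (π * y) = Real.sin (2 * π * N * y)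
      * (Real.cos (π * y) / Real.sin (π * y) - 1 / (π * y)) + Real.cos (2 * π * N * y) := by
    rw [hD]; ring
  rw [e]
  refine (abs_add_le _ _).trans ?_
  rw [abs_mul]
  have := Real.abs_sin_le_one (2 * π * N * y)
  have := Real.abs_cos_le_one (2 * π * N * y)
  have := mul_le_mul (Real.abs_sin_le_one (2 * π * N * y)) (cot_sub_inv_le hz0 hz) (abs_nonneg _)
    zero_le_one
  linarith

/-- Pairs `(j, j')` of indices below `M + 1` at distance at most `N`. -/
def pairs (M N : ℕ) : Finset (ℕ × ℕ) :=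
  (range (M + 1) ×ˢ range (M + 1)).filter fun p => |((p.1 : ℤ) - p.2)| ≤ N

lemma fejer_approx (M N : ℕ) (hNM : N ≤ M) (y : ℝ) :
    ‖(∑ p ∈ pairs M N, ee ((((p.1 : ℤ) - p.2 : ℤ) : ℝ) * y)) / ((M : ℂ) + 1) - dk N y‖
      ≤ (2 * (N : ℝ) + 1) * N / (M + 1) := by
  classical
  set cnt : ℤ → ℕ := fun k =>
    ((range (M + 1) ×ˢ range (M + 1)).filter fun p => ((p.1 : ℤ) - p.2) = k).card with hcnt
  have hsum : ∑ p ∈ pairs M N, ee ((((p.1 : ℤ) - p.2 : ℤ) : ℝ) * y)
      = ∑ k ∈ Icc (-(N : ℤ)) N, (cnt k : ℂ) * ee ((k : ℝ) * y) := by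
    rw [← Finset.sum_fiberwise_of_maps_to (s := pairs M N) (t := Icc (-(N : ℤ)) N)
      (g := fun p => (p.1 : ℤ) - p.2)
      (fun p hp => Finset.mem_Icc.2 (abs_le.1 (Finset.mem_filter.1 hp).2))]
    refine Finset.sum_congr rfl fun k hk => ?_
    have hset : (pairs M N).filter (fun p => (p.1 : ℤ) - p.2 = k)
        = (range (M + 1) ×ˢ range (M + 1)).filter fun p => ((p.1 : ℤ) - p.2) = k := by
      unfold pairs
      rw [Finset.filter_filter]
      refine Finset.filter_congr fun p _ => ⟨fun h => h.2, fun h => ⟨?_, h⟩⟩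
      rw [h, abs_le]; exact Finset.mem_Icc.1 hk
    rw [hset, hcnt]
    rw [Finset.sum_congr rfl (g := fun _ => ee ((k : ℝ) * y))
      (fun p hp => by rw [(Finset.mem_filter.1 hp).2]), Finset.sum_const, nsmul_eq_mul]
  have hb : ∀ k ∈ Icc (-(N : ℤ)) N, |(cnt k : ℝ) - ((M : ℝ) + 1)| ≤ N := by
    intro k hk
    obtain ⟨hk1, hk2⟩ := Finset.mem_Icc.1 hk
    have hup : cnt k ≤ M + 1 := by
      have : cnt k ≤ (range (M + 1)).card := by
        refine Finset.card_le_card_of_injOn Prod.fst (fun p hp => ?_) fun a ha b hb h => ?_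
        · simp at hp ⊢; omega
        · simp at ha hb
          ext
          · exact h
          · omega
      simpa using this
    have hlo : M + 1 ≤ cnt k + N := by
      have : (range (M + 1 - N)).card ≤ cnt k := by
        refine Finset.card_le_card_of_injOn
          (fun i => (i + k.toNat, i + (-k).toNat)) (fun i hi => ?_) fun a _ b _ h => ?_
        · simp at hi ⊢; omega
        · simp at h; omega
      simp at this; omega
    have h1 : (cnt k : ℝ) ≤ (M : ℝ) + 1 := by exact_mod_cast hup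
    have h2 : (M : ℝ) + 1 ≤ (cnt k : ℝ) + N := by exact_mod_cast hlo
    rw [abs_le]; constructor <;> linarith
  have hM : (0 : ℝ) < (M : ℝ) + 1 := by positivity
  have hMc : ((M : ℂ) + 1) ≠ 0 := by exact_mod_cast hM.ne'
  rw [hsum, dk, Finset.sum_div, ← Finset.sum_sub_distrib]
  refine (norm_sum_le _ _).trans ((Finset.sum_le_sum (g := fun _ => (N : ℝ) / (M + 1))
    fun k hk => ?_).trans ?_)
  · have e : (cnt k : ℂ) * ee ((k : ℝ) * y) / ((M : ℂ) + 1) - ee ((k : ℝ) * y)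
        = (((cnt k : ℝ) - ((M : ℝ) + 1)) / ((M : ℝ) + 1) : ℝ) * ee ((k : ℝ) * y) := by
      push_cast; field_simp
    rw [e, norm_mul, norm_ee, mul_one, Complex.norm_real, Real.norm_eq_abs, abs_div,
      abs_of_pos hM]
    gcongr
    exact hb k hk
  · rw [Finset.sum_const, nsmul_eq_mul, Int.card_Icc]
    have : ((N : ℤ) + 1 - -(N : ℤ)).toNat = 2 * N + 1 := by omega
    rw [this]; push_cast; rw [mul_div_assoc]

/-- The Fejér kernel of order `M`. -/
def fejer (M : ℕ) (y : ℝ) : ℝ := ‖∑ j ∈ range (M + 1), ee ((j : ℝ) * y)‖ ^ 2 / (M + 1)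

lemma fejer_nonneg (M : ℕ) (y : ℝ) : 0 ≤ fejer M y := by unfold fejer; positivity

lemma fejer_le (M : ℕ) (y : ℝ) : fejer M y ≤ M + 1 := by
  unfold fejer
  rw [div_le_iff₀ (by positivity)]
  have h : ‖∑ j ∈ range (M + 1), ee ((j : ℝ) * y)‖ ≤ (M : ℝ) + 1 := by
    refine (norm_sum_le _ _).trans ?_
    simp [norm_ee]
  calc _ ≤ ((M : ℝ) + 1) ^ 2 := pow_le_pow_left₀ (norm_nonneg _) h 2
    _ = _ := sq _

lemma fejer_eq (M : ℕ) (y : ℝ) :
    (fejer M y : ℂ) = (∑ p ∈ range (M + 1) ×ˢ range (M + 1),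
      ee ((((p.1 : ℤ) - p.2 : ℤ) : ℝ) * y)) / ((M : ℂ) + 1) := by
  unfold fejer
  push_cast
  rw [← Complex.mul_conj', map_sum, Finset.sum_mul_sum, Finset.sum_product]
  congr 1
  refine Finset.sum_congr rfl fun a _ => Finset.sum_congr rfl fun b _ => ?_
  rw [← ee_neg_conj, ← ee_add]
  congr 1
  ring

end Vale.Agent.P091
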