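import Vale.Agent.P091.Avg
import Vale.Agent.P091.Kernel

/-!
P091: one block. A positive trigonometric polynomial of mean one and height `2 ^ O(L ^ 2)` having, at
every point of a quarter of each cell, a partial sum of size at least a multiple of `L`.
-/

noncomputable section

namespace Vale.Agent.P091

open Finset Real

/-- Exponent bounding the frequencies used by the block. -/
def ex' (L : ℕ) : ℕ := base L + 64 * L * bk L + L + 1

/-- The degree of the block. -/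
def deg (L : ℕ) : ℕ := 2 ^ (2 * ex' L + 2)

attribute [irreducible] deg ex'

/-- The cell length. -/
def hh (L : ℕ) : ℝ := ((2 : ℝ) ^ (L + 1))⁻¹

/-- The atoms. -/
def tau (L l : ℕ) : ℝ := (l : ℝ) * hh L + off L l

/-- The `N`-th partial sum of the block. -/
def bsum (L N : ℕ) (y : ℝ) : ℂ :=
  (∑ l ∈ range (2 ^ L), (∑ p ∈ pairs (deg L) N,
    ee ((((p.1 : ℤ) - p.2 : ℤ) : ℝ) * (y - tau L l))) / ((deg L : ℂ) + 1)) / (2 : ℂ) ^ L

/-- The block. -/
def bfun (L : ℕ) (y : ℝ) : ℝ :=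
  (∑ l ∈ range (2 ^ L), fejer (deg L) (y - tau L l)) / (2 : ℝ) ^ L

lemma bfun_nonneg (L : ℕ) (y : ℝ) : 0 ≤ bfun L y :=
  div_nonneg (Finset.sum_nonneg fun _ _ => fejer_nonneg _ _) (by positivity)

lemma bfun_le (L : ℕ) (y : ℝ) : bfun L y ≤ deg L + 1 := by
  unfold bfun
  rw [div_le_iff₀ (by positivity)]
  refine (Finset.sum_le_sum fun l _ => fejer_le (deg L) (y - tau L l)).trans ?_
  rw [Finset.sum_const, Finset.card_range, nsmul_eq_mul, mul_comm]
  push_cast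
  exact le_rfl

lemma ee_int_mul_add (k m : ℤ) (y : ℝ) : ee ((k : ℝ) * (y + m)) = ee ((k : ℝ) * y) := by
  rw [mul_add, ee_add, ← Int.cast_mul, ee_intCast, mul_one]

lemma bsum_periodic (L N : ℕ) (y : ℝ) (m : ℤ) : bsum L N (y + m) = bsum L N y := by
  unfold bsum
  congr 1
  refine Finset.sum_congr rfl fun l _ => ?_
  congr 1
  refine Finset.sum_congr rfl fun p _ => ?_
  rw [show y + (m : ℝ) - tau L l = (y - tau L l) + m by ring, ee_int_mul_add]

lemma bsum_approx (L N : ℕ) (hN : N ≤ 2 ^ ex' L) (y : ℝ) :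
    ‖bsum L N y - ((∑ l ∈ range (2 ^ L), dkR N (y - tau L l)) / (2 : ℝ) ^ L : ℝ)‖ ≤ 1 := by
  unfold bsum
  rw [Complex.ofReal_div, Complex.ofReal_sum, Complex.ofReal_pow, Complex.ofReal_ofNat,
    div_sub_div_same, ← Finset.sum_sub_distrib, norm_div, norm_pow, Complex.norm_two,
    div_le_one (by positivity)]
  refine (norm_sum_le _ _).trans ((Finset.sum_le_sum (g := fun _ => (1 : ℝ)) fun l _ => ?_).trans ?_)
  · have hNM : N ≤ deg L := hN.trans (by rw [deg]; exact Nat.pow_le_pow_right (by norm_num) (by omega))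
    rw [← dk_eq]
    refine (fejer_approx _ _ hNM _).trans ?_
    rw [div_le_one (by positivity)]
    have h1 : (2 * N + 1) * N ≤ deg L + 1 := by
      have h2 : N * N ≤ 2 ^ ex' L * 2 ^ ex' L := Nat.mul_le_mul hN hN
      have h3 : deg L = 4 * (2 ^ ex' L * 2 ^ ex' L) := by
        rw [deg, pow_add, two_mul, pow_add]; ring
      nlinarith
    exact_mod_cast h1
  · rw [Finset.sum_const, Finset.card_range, nsmul_eq_mul, mul_one]
    push_cast
    exact le_rfl

lemma sin_choice {α φ : ℝ} (hφ : 1 / 2 < |Real.sin φ|) :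
    1 / 4 ≤ |Real.sin α| ∨ 1 / 4 ≤ |Real.sin (α + φ)| := by
  by_contra h
  push Not at h
  have h1 : |Real.sin φ| ≤ |Real.sin (α + φ)| + |Real.sin α| := by
    have e : Real.sin φ = Real.sin (α + φ) * Real.cos α - Real.cos (α + φ) * Real.sin α := by
      rw [← Real.sin_sub]; ring_nf
    rw [e]
    refine (abs_sub _ _).trans (add_le_add ?_ ?_)
    · rw [abs_mul]; exact mul_le_of_le_one_right (abs_nonneg _) (Real.abs_cos_le_one _)
    · rw [abs_mul]; exact mul_le_of_le_one_left (abs_nonneg _) (Real.abs_cos_le_one _)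
  linarith [h.1, h.2]

lemma half_lt_sin {θ : ℝ} (h1 : 1 / 8 ≤ θ) (h2 : θ ≤ 3 / 8) :
    1 / 2 < |Real.sin (2 * π * θ)| := by
  have hpi := Real.pi_pos
  have key : ∀ t : ℝ, π / 4 ≤ t → t ≤ π / 2 → 1 / 2 < Real.sin t := by
    intro t ht1 ht2
    have h := Real.sin_le_sin_of_le_of_le_pi_div_two (by linarith) ht2 ht1
    rw [Real.sin_pi_div_four] at h
    have hs : (1 : ℝ) < Real.sqrt 2 := by
      rw [Real.lt_sqrt (by norm_num)]; norm_num
    linarith
  refine lt_of_lt_of_le ?_ (le_abs_self _)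
  by_cases h : θ ≤ 1 / 4
  · exact key _ (by nlinarith) (by nlinarith)
  · rw [← Real.sin_pi_sub]
    exact key _ (by nlinarith) (by nlinarith)

lemma hh_mul (L : ℕ) : hh L * (2 : ℝ) ^ (L + 1) = 1 := by unfold hh; field_simp

lemma hh_pos (L : ℕ) : 0 < hh L := by unfold hh; positivity

/-- The relative displacement of the atom `l` seen from the point `(q + θ) * hh L`. -/
def rel (L q l : ℕ) (θ : ℝ) : ℝ := ((q : ℝ) - l) + (θ - off L l * (2 : ℝ) ^ (L + 1))

/-- A bound for `off L l` in units of the cell length. -/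
def eta (L : ℕ) : ℝ := (L : ℝ) * ((2 : ℝ) ^ (L + 9))⁻¹

lemma eta_nonneg (L : ℕ) : 0 ≤ eta L := by unfold eta; positivity

lemma eta_le (L : ℕ) : eta L ≤ 1 / 512 := by
  have h1 : (L : ℝ) ≤ (2 : ℝ) ^ L := by exact_mod_cast L.lt_two_pow_self.le
  unfold eta
  rw [pow_add, ← div_eq_mul_inv, div_le_iff₀ (by positivity)]
  norm_num
  linarith

lemma off_scaled_le (L l : ℕ) : off L l * (2 : ℝ) ^ (L + 1) ≤ eta L := by
  calc off L l * (2 : ℝ) ^ (L + 1) ≤ (L : ℝ) * ((2 : ℝ) ^ base L)⁻¹ * (2 : ℝ) ^ (L + 1) :=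
        mul_le_mul_of_nonneg_right (off_le L l) (by positivity)
    _ = eta L := by
        unfold eta base
        rw [show 2 * L + 10 = (L + 1) + (L + 9) by ring, pow_add]
        field_simp

lemma sub_tau_eq (L q l : ℕ) (θ : ℝ) :
    ((q : ℝ) + θ) * hh L - tau L l = rel L q l θ * hh L := by
  have := hh_mul L
  unfold rel tau
  linear_combination (off L l) * this

lemma rel_bounds {L q l : ℕ} {θ : ℝ} (hθ1 : 1 / 8 ≤ θ) (hθ2 : θ ≤ 3 / 8) :
    1 / 16 ≤ θ - off L l * (2 : ℝ) ^ (L + 1) ∧ θ - off L l * (2 : ℝ) ^ (L + 1) ≤ 3 / 8 ∧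
    (l ≤ q → 1 / 16 ≤ rel L q l θ) ∧ (q < l → rel L q l θ < 0) ∧
    (l ≠ q → (Nat.dist q l : ℝ) / 2 ≤ |rel L q l θ| ∧ |rel L q l θ| ≤ 2 * (Nat.dist q l : ℝ)) := by
  have h1 := off_scaled_le L l
  have h2 := eta_le L
  have h3 : 0 ≤ off L l * (2 : ℝ) ^ (L + 1) := mul_nonneg (off_nonneg L l) (by positivity)
  refine ⟨by linarith, by linarith, fun hl => ?_, fun hl => ?_, fun hl => ?_⟩
  · have : (l : ℝ) ≤ q := by exact_mod_cast hl
    unfold rel; linarith
  · have : (q : ℝ) + 1 ≤ l := by exact_mod_cast hl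
    unfold rel; linarith
  · rcases lt_or_gt_of_ne hl with h | h
    · have h' : (l : ℝ) + 1 ≤ q := by exact_mod_cast h
      rw [Nat.dist_eq_sub_of_le_right h.le, Nat.cast_sub h.le]
      unfold rel
      rw [abs_of_nonneg (by linarith)]
      constructor <;> linarith
    · have h' : (q : ℝ) + 1 ≤ l := by exact_mod_cast h
      rw [Nat.dist_eq_sub_of_le h.le, Nat.cast_sub h.le]
      unfold rel
      rw [abs_of_neg (by linarith)]
      constructor <;> linarith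

lemma sin_phase {L q l c δ : ℕ} (hq : q < 2 ^ L) (hl : l < 2 ^ L)
    (hc : freq L q = 2 ^ (L + 1) * c) (hδ : δ ≤ 1) (θ : ℝ) :
    |Real.sin (2 * π * (((c + δ) * 2 ^ (L + 1) : ℕ) : ℝ) * (((q : ℝ) + θ) * hh L - tau L l))
        - (if l < q then -1 else 1) * Real.sin (2 * π * ((c + δ : ℕ) : ℝ) * θ)|
      ≤ 2 * π * (perr L q l + eta L) := by
  obtain ⟨m, hm⟩ := phase hq hl
  set E := ((freq L q : ℝ) * off L l - (gt' q l : ℝ) / 2 - m)
    + (δ : ℝ) * (off L l * (2 : ℝ) ^ (L + 1)) with hE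
  have hEle : |E| ≤ perr L q l + eta L := by
    refine (abs_add_le _ _).trans (add_le_add hm ?_)
    have hn0 : 0 ≤ off L l * (2 : ℝ) ^ (L + 1) := mul_nonneg (off_nonneg L l) (by positivity)
    rw [abs_mul, abs_of_nonneg hn0, Nat.abs_cast]
    calc (δ : ℝ) * _ ≤ 1 * (off L l * (2 : ℝ) ^ (L + 1)) :=
          mul_le_mul_of_nonneg_right (by exact_mod_cast hδ) hn0
      _ ≤ eta L := by rw [one_mul]; exact off_scaled_le L l
  have hfreq : (freq L q : ℝ) = (c : ℝ) * (2 : ℝ) ^ (L + 1) := by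
    rw [hc]; push_cast; ring
  set α := 2 * π * ((c + δ : ℕ) : ℝ) * θ with hα
  have harg : 2 * π * (((c + δ) * 2 ^ (L + 1) : ℕ) : ℝ) * (((q : ℝ) + θ) * hh L - tau L l)
      = (α - π * (gt' q l : ℝ) - 2 * π * E)
        + ((((c + δ : ℕ) : ℤ) * ((q : ℤ) - l) - m : ℤ) : ℝ) * (2 * π) := by
    rw [sub_tau_eq, hα, hE, hfreq]
    unfold rel
    push_cast
    linear_combination (2 * π * ((c : ℝ) + δ) *
      ((q : ℝ) - l + (θ - off L l * (2 : ℝ) ^ (L + 1)))) * hh_mul L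
  rw [harg, Real.sin_add_int_mul_two_pi]
  have hsign : (if l < q then (-1 : ℝ) else 1) * Real.sin α
      = Real.sin (α - π * (gt' q l : ℝ)) := by
    unfold gt'
    split_ifs <;> simp [Real.sin_sub_pi]
  rw [hsign]
  refine (Real.abs_sin_sub_sin_le _ _).trans ?_
  rw [sub_sub_cancel_left, abs_neg, abs_mul, abs_of_pos (by positivity : (0 : ℝ) < 2 * π)]
  exact mul_le_mul_of_nonneg_left hEle (by positivity)

lemma main_sum {L q : ℕ} (hL : 1 ≤ L) (hq : q < 2 ^ L) {θ : ℝ} (hθ1 : 1 / 8 ≤ θ)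
    (hθ2 : θ ≤ 3 / 8) (s : ℕ → ℝ) (σ : ℝ) (hσ : 1 / 4 ≤ |σ|) (hs1 : |s q| ≤ 1)
    (hs : ∀ l < 2 ^ L, |s l - (if l < q then -1 else 1) * σ| ≤ 2 * π * (perr L q l + eta L)) :
    0.0494 * (L : ℝ) - 30 ≤ |∑ l ∈ range (2 ^ L), s l / rel L q l θ| := by
  classical
  set n := 2 ^ L with hn
  set W : ℝ := ∑ l ∈ (range n).erase q, 1 / |rel L q l θ| with hW
  set T : ℝ := ∑ l ∈ (range n).erase q, s l / rel L q l θ with hT
  set U : ℝ := s q / rel L q q θ with hU
  set R : ℝ := 4 * π * ((L : ℝ) / 1024 + 1 + (L : ℝ) / 512) with hR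
  have h1 : |T + σ * W| ≤ R := by
    rw [hT, hW, Finset.mul_sum, ← Finset.sum_add_distrib]
    refine (Finset.abs_sum_le_sum_abs _ _).trans ?_
    refine (Finset.sum_le_sum (g := fun l =>
      4 * π * ((perr L q l) / (Nat.dist q l : ℝ) + eta L)) fun l hl => ?_).trans ?_
    · obtain ⟨hl1, hl2⟩ := Finset.mem_erase.1 hl
      obtain ⟨-, -, hb3, hb4, hb5⟩ := rel_bounds (L := L) (q := q) (l := l) hθ1 hθ2
      have e : σ * (1 / |rel L q l θ|)
          = -((if l < q then (-1 : ℝ) else 1) * σ / rel L q l θ) := by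
        split_ifs with h
        · rw [abs_of_nonneg (by linarith [hb3 h.le] : (0 : ℝ) ≤ rel L q l θ)]; ring
        · rw [abs_of_neg (hb4 (by omega))]; ring
      rw [e, ← sub_eq_add_neg, div_sub_div_same, abs_div]
      have hd1 : (1 : ℝ) ≤ (Nat.dist q l : ℝ) := by
        exact_mod_cast (by rw [Nat.dist]; omega : 1 ≤ Nat.dist q l)
      have hsl := hs l (Finset.mem_range.1 hl2)
      have hb0 : 0 ≤ 2 * π * (perr L q l + eta L) := (abs_nonneg _).trans hsl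
      calc |s l - (if l < q then -1 else 1) * σ| / |rel L q l θ|
          ≤ 2 * π * (perr L q l + eta L) / ((Nat.dist q l : ℝ) / 2) :=
            div_le_div₀ hb0 hsl (by linarith) (hb5 hl1).1
        _ = 4 * π * (perr L q l / (Nat.dist q l : ℝ) + eta L / (Nat.dist q l : ℝ)) := by ring
        _ ≤ _ := mul_le_mul_of_nonneg_left
            (add_le_add le_rfl (div_le_self (eta_nonneg L) hd1)) (by positivity)
    · rw [← Finset.mul_sum, Finset.sum_add_distrib, Finset.sum_const, nsmul_eq_mul, hR]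
      refine mul_le_mul_of_nonneg_left (add_le_add (perr_avg_le hq) ?_) (by positivity)
      calc (((range n).erase q).card : ℝ) * eta L ≤ (2 : ℝ) ^ L * eta L := by
            refine mul_le_mul_of_nonneg_right ?_ (eta_nonneg L)
            calc ((((range n).erase q).card : ℕ) : ℝ) ≤ ((n : ℕ) : ℝ) :=
                  Nat.cast_le.2 (Finset.card_erase_le.trans_eq (Finset.card_range _))
              _ = _ := by rw [hn, Nat.cast_pow, Nat.cast_ofNat]
        _ = (L : ℝ) / 512 := by unfold eta; rw [pow_add]; field_simp; norm_num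
  have hWle : ((L : ℝ) - 1) * Real.log 2 / 2 ≤ W := by
    refine le_trans (div_le_div_of_nonneg_right (signal_le hL hq) (by norm_num)) ?_
    rw [Finset.sum_div, hW]
    refine Finset.sum_le_sum fun l hl => ?_
    obtain ⟨hl1, hl2⟩ := Finset.mem_erase.1 hl
    obtain ⟨-, -, -, -, hb5⟩ := rel_bounds (L := L) (q := q) (l := l) hθ1 hθ2
    have hd1 : (1 : ℝ) ≤ (Nat.dist q l : ℝ) := by
      exact_mod_cast (by rw [Nat.dist]; omega : 1 ≤ Nat.dist q l)
    rw [div_div, mul_comm]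
    exact one_div_le_one_div_of_le (by linarith [(hb5 hl1).1]) (hb5 hl1).2
  have h2 : |U| ≤ 16 := by
    obtain ⟨-, -, hb3, -, -⟩ := rel_bounds (L := L) (q := q) (l := q) hθ1 hθ2
    have h := hb3 le_rfl
    rw [hU, abs_div, abs_of_pos (by linarith : (0 : ℝ) < rel L q q θ), div_le_iff₀ (by linarith)]
    linarith
  have hsum : ∑ l ∈ range n, s l / rel L q l θ = U + T :=
    (Finset.add_sum_erase _ _ (Finset.mem_range.2 hq)).symm
  rw [hsum]
  have h3 : |σ| * W = |σ * W| := by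
    rw [abs_mul, abs_of_nonneg (a := W) (Finset.sum_nonneg fun _ _ => by positivity)]
  have h4 : |σ * W| ≤ |T + σ * W| + |T| := by
    calc |σ * W| = |(T + σ * W) - T| := by ring_nf
      _ ≤ _ := abs_sub _ _
  have h5 : |T| ≤ |U + T| + |U| := by
    calc |T| = |(U + T) - U| := by ring_nf
      _ ≤ _ := abs_sub _ _
  have hlog : (0.69 : ℝ) ≤ Real.log 2 := by linarith [Real.log_two_gt_d9]
  have hL1 : (1 : ℝ) ≤ L := by exact_mod_cast hL
  have hW2 : ((L : ℝ) - 1) * 0.345 / 4 ≤ |σ| * W := by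
    have hm := mul_le_mul_of_nonneg_left hlog (by linarith : (0 : ℝ) ≤ (L : ℝ) - 1)
    have hW3 : ((L : ℝ) - 1) * 0.345 ≤ W := by linarith
    calc ((L : ℝ) - 1) * 0.345 / 4 = (1 / 4) * (((L : ℝ) - 1) * 0.345) := by ring
      _ ≤ _ := mul_le_mul hσ hW3 (mul_nonneg (by linarith) (by norm_num)) (abs_nonneg _)
  have hpi1 : π ≤ 3.1416 := Real.pi_lt_d4.le
  have hR2 : R ≤ 0.03682 * L + 13 := by
    rw [hR]
    have := mul_le_mul_of_nonneg_right hpi1
      (by positivity : (0 : ℝ) ≤ (L : ℝ) / 1024 + 1 + (L : ℝ) / 512)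
    linarith
  linarith

lemma kernel_sum {L q : ℕ} (hq : q < 2 ^ L) {θ : ℝ} (hθ1 : 1 / 8 ≤ θ) (hθ2 : θ ≤ 3 / 8) (N : ℕ) :
    |(∑ l ∈ range (2 ^ L), dkR N (((q : ℝ) + θ) * hh L - tau L l)) / (2 : ℝ) ^ L
      - 2 / π * ∑ l ∈ range (2 ^ L),
        Real.sin (2 * π * N * (((q : ℝ) + θ) * hh L - tau L l)) / rel L q l θ| ≤ 3 := by
  set y := ((q : ℝ) + θ) * hh L with hy
  have hnpos : (0 : ℝ) < (2 : ℝ) ^ L := by positivity
  have hane : ∀ l, rel L q l θ ≠ 0 := by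
    intro l
    obtain ⟨-, -, hb3, hb4, -⟩ := rel_bounds (L := L) (q := q) (l := l) hθ1 hθ2
    rcases le_or_gt l q with h | h
    · exact (by linarith [hb3 h] : (0 : ℝ) < rel L q l θ).ne'
    · exact (hb4 h).ne
  have e : 2 / π * ∑ l ∈ range (2 ^ L), Real.sin (2 * π * N * (y - tau L l)) / rel L q l θ
      = (∑ l ∈ range (2 ^ L), Real.sin (2 * π * N * (y - tau L l))
        / (π * (y - tau L l))) / (2 : ℝ) ^ L := by
    rw [Finset.mul_sum, Finset.sum_div]
    refine Finset.sum_congr rfl fun l _ => ?_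
    have := hane l
    rw [hy, sub_tau_eq]
    unfold hh
    rw [pow_succ]
    field_simp
  rw [e, div_sub_div_same, ← Finset.sum_sub_distrib, abs_div, abs_of_pos hnpos,
    div_le_iff₀ hnpos]
  refine (Finset.abs_sum_le_sum_abs _ _).trans ((Finset.sum_le_sum (g := fun _ => (3 : ℝ))
    fun l hl => dkR_approx N ?_ ?_).trans ?_)
  · rw [hy, sub_tau_eq]; exact mul_ne_zero (hane l) (hh_pos L).ne'
  · rw [hy, sub_tau_eq, abs_mul, abs_of_pos (hh_pos L)]
    have h1 : |rel L q l θ| ≤ (2 : ℝ) ^ L := by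
      have h2 : (q : ℝ) + 1 ≤ (2 : ℝ) ^ L := by exact_mod_cast hq
      have h3 : (l : ℝ) + 1 ≤ (2 : ℝ) ^ L := by exact_mod_cast Finset.mem_range.1 hl
      obtain ⟨ha, hb, -, -, -⟩ := rel_bounds (L := L) (q := q) (l := l) hθ1 hθ2
      have : (0 : ℝ) ≤ l := l.cast_nonneg
      have : (0 : ℝ) ≤ q := q.cast_nonneg
      unfold rel
      rw [abs_le]; constructor <;> linarith
    calc |rel L q l θ| * hh L ≤ (2 : ℝ) ^ L * hh L :=
          mul_le_mul_of_nonneg_right h1 (hh_pos L).le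
      _ = 1 / 2 := by unfold hh; rw [pow_succ]; field_simp
  · rw [Finset.sum_const, Finset.card_range, nsmul_eq_mul, Nat.cast_pow, Nat.cast_ofNat, mul_comm]

lemma block_main {L q : ℕ} (hL : 1 ≤ L) (hq : q < 2 ^ L) {θ : ℝ} (hθ1 : 1 / 8 ≤ θ)
    (hθ2 : θ ≤ 3 / 8) :
    ∃ N, N ≤ 2 ^ ex' L ∧ (L : ℝ) / 40 - 30 ≤ ‖bsum L N (((q : ℝ) + θ) * hh L)‖ := by
  obtain ⟨c, hc⟩ : 2 ^ (L + 1) ∣ freq L q :=
    (pow_dvd_pow 2 (by unfold base; omega)).trans (two_pow_base_dvd_freq L q)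
  obtain ⟨δ, hδ, hsin⟩ : ∃ δ : ℕ, δ ≤ 1 ∧
      1 / 4 ≤ |Real.sin (2 * π * ((c + δ : ℕ) : ℝ) * θ)| := by
    rcases sin_choice (α := 2 * π * (c : ℝ) * θ) (half_lt_sin hθ1 hθ2) with h | h
    · exact ⟨0, by norm_num, by rw [Nat.add_zero]; exact h⟩
    · refine ⟨1, le_rfl, ?_⟩
      rw [show 2 * π * ((c + 1 : ℕ) : ℝ) * θ = 2 * π * (c : ℝ) * θ + 2 * π * θ by push_cast; ring]
      exact h
  have hNle : (c + δ) * 2 ^ (L + 1) ≤ 2 ^ ex' L := by
    have h1 := freq_le L q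
    rw [hc] at h1
    have h2 : 2 ^ (L + 1) ≤ 2 ^ (base L + 64 * L * bk L + L) :=
      Nat.pow_le_pow_right (by norm_num) (by unfold base; omega)
    have h3 : 2 ^ ex' L = 2 * 2 ^ (base L + 64 * L * bk L + L) := by rw [ex', pow_succ']
    have h4 : δ * 2 ^ (L + 1) ≤ 1 * 2 ^ (L + 1) := Nat.mul_le_mul_right _ hδ
    rw [add_mul, mul_comm c]
    omega
  set N := (c + δ) * 2 ^ (L + 1) with hN
  refine ⟨N, hNle, ?_⟩
  set y := ((q : ℝ) + θ) * hh L with hy
  set S := ∑ l ∈ range (2 ^ L), Real.sin (2 * π * N * (y - tau L l)) / rel L q l θ with hS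
  have hS2 : 0.0494 * (L : ℝ) - 30 ≤ |S| :=
    main_sum hL hq hθ1 hθ2 (fun l => Real.sin (2 * π * N * (y - tau L l)))
      (Real.sin (2 * π * ((c + δ : ℕ) : ℝ) * θ)) hsin (Real.abs_sin_le_one _)
      (fun l hl => by simp only [hN, hy]; exact sin_phase hq hl hc hδ θ)
  have hker := kernel_sum hq hθ1 hθ2 N
  rw [← hy, ← hS] at hker
  have hap := bsum_approx L N hNle y
  set X : ℝ := (∑ l ∈ range (2 ^ L), dkR N (y - tau L l)) / (2 : ℝ) ^ L with hX
  have hnorm : |X| - 1 ≤ ‖bsum L N y‖ := by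
    have := norm_sub_norm_le (X : ℂ) (bsum L N y)
    rw [norm_sub_rev, Complex.norm_real, Real.norm_eq_abs] at this
    linarith
  have hX' : |2 / π * S| - 3 ≤ |X| := by
    have := abs_sub_abs_le_abs_sub (2 / π * S) X
    rw [abs_sub_comm (2 / π * S) X] at this
    linarith
  rw [abs_mul, abs_of_pos (by positivity : (0 : ℝ) < 2 / π)] at hX'
  have h63 : (0.636 : ℝ) ≤ 2 / π := by
    rw [le_div_iff₀ Real.pi_pos]; linarith [Real.pi_lt_d4]
  have hfin : (L : ℝ) / 40 - 26 ≤ 2 / π * |S| := by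
    have hL0 : (0 : ℝ) ≤ L := L.cast_nonneg
    rcases le_or_gt (0.0494 * (L : ℝ) - 30) 0 with h | h
    · have : 0 ≤ 2 / π * |S| := by positivity
      linarith
    · calc (L : ℝ) / 40 - 26 ≤ 0.636 * (0.0494 * (L : ℝ) - 30) := by linarith
        _ ≤ _ := mul_le_mul h63 hS2 h.le (by positivity)
  linarith

lemma block_cover {L : ℕ} (hL : 1 ≤ L) (y : ℝ) :
    ∃ i : Fin 8, ∃ N, N ≤ 2 ^ ex' L ∧ (L : ℝ) / 40 - 30 ≤
      ‖bsum L N (y - ((((i : ℕ) % 4 : ℕ) : ℝ) / 4 - 1 / 8) * hh L - (((i : ℕ) / 4 : ℕ) : ℝ) / 2)‖ := by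
  set u := y * (2 : ℝ) ^ (L + 1) with hu
  obtain ⟨m, hm⟩ : ∃ m : ℕ, m < 4 ∧ (m : ℝ) / 4 ≤ Int.fract u ∧ Int.fract u < ((m : ℝ) + 1) / 4 := by
    have h0 := Int.fract_nonneg u
    have h1 := Int.fract_lt_one u
    refine ⟨⌊4 * Int.fract u⌋₊, ?_, ?_, ?_⟩
    · rw [Nat.floor_lt (by linarith)]; push_cast; linarith
    · have := Nat.floor_le (by linarith : (0 : ℝ) ≤ 4 * Int.fract u); linarith
    · have := Nat.lt_floor_add_one (4 * Int.fract u); linarith
  set n : ℤ := (2 : ℤ) ^ L with hn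
  have hnpos : 0 < n := by positivity
  set r := (⌊u⌋ % n).toNat with hr
  set z := ⌊u⌋ / n with hz
  have hrlt : r < 2 ^ L := by
    have h1 := Int.emod_lt_of_pos ⌊u⌋ hnpos
    have h2 := Int.emod_nonneg ⌊u⌋ hnpos.ne'
    have : (r : ℤ) < ((2 ^ L : ℕ) : ℤ) := by push_cast; rw [hr, Int.toNat_of_nonneg h2]; exact h1
    exact_mod_cast this
  have hfl : (⌊u⌋ : ℝ) = (z : ℝ) * (2 : ℝ) ^ L + r := by
    have h2 := Int.emod_nonneg ⌊u⌋ hnpos.ne'
    have h3 : ⌊u⌋ = z * n + (r : ℤ) := by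
      rw [hr, Int.toNat_of_nonneg h2, hz, Int.emod_def]
      ring
    rw [h3, hn]; push_cast; rfl
  obtain ⟨hm4, hm1, hm2⟩ := hm
  set θ := Int.fract u - ((m : ℝ) / 4 - 1 / 8) with hθ
  obtain ⟨N, hN, hbound⟩ := block_main hL hrlt (θ := θ) (by linarith) (by linarith)
  set b := (z % 2).toNat with hb
  have hb2 : b < 2 := by omega
  refine ⟨⟨4 * b + m, by omega⟩, N, hN, ?_⟩
  simp only
  rw [show (4 * b + m) % 4 = m by omega, show (4 * b + m) / 4 = b by omega]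
  have hhn : hh L * (2 : ℝ) ^ (L + 1) = 1 := by unfold hh; field_simp
  have key : y - ((m : ℝ) / 4 - 1 / 8) * hh L - (b : ℝ) / 2
      = ((r : ℝ) + θ) * hh L + ((z / 2 : ℤ) : ℝ) := by
    have hy : y = u * hh L := by rw [hu, mul_assoc, mul_comm _ (hh L), hhn, mul_one]
    have huf : u = (⌊u⌋ : ℝ) + Int.fract u := (Int.floor_add_fract u).symm
    have hz2 : (z : ℝ) = 2 * ((z / 2 : ℤ) : ℝ) + (b : ℝ) := by
      have : z = 2 * (z / 2) + (b : ℤ) := by omega
      exact_mod_cast this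
    have hhalf : (2 : ℝ) ^ L * hh L = 1 / 2 := by unfold hh; rw [pow_succ]; field_simp
    rw [hy, huf, hfl, hθ, hz2]
    linear_combination (2 * ((z / 2 : ℤ) : ℝ) + (b : ℝ)) * hhalf
  rw [key, bsum_periodic]
  exact hbound

end Vale.Agent.P091
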