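import Vale.Agent.P091.Block

/-!
P091: the blocks as trigonometric polynomials on `AddCircle T`.
-/

noncomputable section

namespace Vale.Agent.P091

open Finset Real MeasureTheory AddCircle

variable {T : ℝ} [hT : Fact (0 < T)]

/-- Index set of the terms of a block. -/
def idx (L : ℕ) : Finset (ℕ × (ℕ × ℕ)) :=
  range (2 ^ L) ×ˢ (range (deg L + 1) ×ˢ range (deg L + 1))

/-- The frequency of a term. -/
def nu (p : ℕ × (ℕ × ℕ)) : ℤ := (p.2.1 : ℤ) - p.2.2

/-- The coefficient of a term of the block translated by `τ`. -/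
def cf (L : ℕ) (τ : ℝ) (p : ℕ × (ℕ × ℕ)) : ℂ :=
  ee (-((nu p : ℝ) * (τ + tau L p.1))) / ((deg L : ℂ) + 1) / (2 : ℂ) ^ L

/-- The translated and modulated block. -/
def gfun (T : ℝ) (L : ℕ) (Λ : ℤ) (τ : ℝ) (z : AddCircle T) : ℂ :=
  ∑ p ∈ idx L, cf L τ p * fourier (Λ + nu p) z

lemma exists_rep (z : AddCircle T) : ∃ y : ℝ, ((T * y : ℝ) : AddCircle T) = z := by
  obtain ⟨x, rfl⟩ := QuotientAddGroup.mk_surjective z
  refine ⟨x / T, ?_⟩
  rw [mul_div_cancel₀ _ hT.out.ne']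

lemma fourier_rep (m : ℤ) (y : ℝ) : fourier m ((T * y : ℝ) : AddCircle T) = ee ((m : ℝ) * y) := by
  rw [fourier_coe_apply]
  unfold ee
  congr 1
  have : (T : ℂ) ≠ 0 := by exact_mod_cast hT.out.ne'
  push_cast
  field_simp

lemma term_eq (L : ℕ) (Λ : ℤ) (τ y : ℝ) (p : ℕ × (ℕ × ℕ)) :
    cf L τ p * fourier (Λ + nu p) ((T * y : ℝ) : AddCircle T) = ee ((Λ : ℝ) * y) *
      (ee ((nu p : ℝ) * (y - τ - tau L p.1)) / ((deg L : ℂ) + 1) / (2 : ℂ) ^ L) := by
  rw [fourier_rep, cf]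
  rw [show (((Λ + nu p : ℤ) : ℝ)) * y = (Λ : ℝ) * y + (nu p : ℝ) * y by push_cast; ring, ee_add,
    show (nu p : ℝ) * (y - τ - tau L p.1) = -((nu p : ℝ) * (τ + tau L p.1)) + (nu p : ℝ) * y by
      ring, ee_add]
  ring

lemma mem_pairs {M N : ℕ} {q : ℕ × ℕ} :
    q ∈ pairs M N ↔ q ∈ range (M + 1) ×ˢ range (M + 1) ∧ |((q.1 : ℤ) - q.2)| ≤ N := by
  unfold pairs; exact Finset.mem_filter

lemma sum_band_eq (L N : ℕ) (Λ : ℤ) (τ y : ℝ) :
    ∑ p ∈ (idx L).filter (fun p => |nu p| ≤ (N : ℤ)),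
      cf L τ p * fourier (Λ + nu p) ((T * y : ℝ) : AddCircle T)
      = ee ((Λ : ℝ) * y) * bsum L N (y - τ) := by
  have hset : (idx L).filter (fun p => |nu p| ≤ (N : ℤ)) = range (2 ^ L) ×ˢ pairs (deg L) N := by
    ext p
    rw [Finset.mem_filter, idx, Finset.mem_product, Finset.mem_product, Finset.mem_product,
      mem_pairs, Finset.mem_product]
    unfold nu
    tauto
  rw [hset, Finset.sum_congr rfl fun p _ => term_eq L Λ τ y p, ← Finset.mul_sum,
    Finset.sum_product]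
  congr 1
  unfold bsum
  rw [Finset.sum_div]
  refine Finset.sum_congr rfl fun l _ => ?_
  rw [Finset.sum_div, Finset.sum_div]
  rfl

lemma gfun_eq (L : ℕ) (Λ : ℤ) (τ y : ℝ) :
    gfun T L Λ τ ((T * y : ℝ) : AddCircle T) = ee ((Λ : ℝ) * y) * (bfun L (y - τ) : ℂ) := by
  unfold gfun
  rw [Finset.sum_congr rfl fun p _ => term_eq L Λ τ y p, ← Finset.mul_sum]
  congr 1
  unfold bfun idx
  rw [Finset.sum_product, Complex.ofReal_div, Complex.ofReal_sum, Complex.ofReal_pow,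
    Complex.ofReal_ofNat, Finset.sum_div]
  refine Finset.sum_congr rfl fun l _ => ?_
  rw [fejer_eq, Finset.sum_div, Finset.sum_div]
  rfl

lemma gfun_continuous (L : ℕ) (Λ : ℤ) (τ : ℝ) : Continuous (gfun T L Λ τ) := by
  unfold gfun
  exact continuous_finsetSum _ fun p _ => continuous_const.mul (map_continuous _)

lemma norm_gfun_le (L : ℕ) (Λ : ℤ) (τ : ℝ) (z : AddCircle T) :
    ‖gfun T L Λ τ z‖ ≤ deg L + 1 := by
  obtain ⟨y, rfl⟩ := exists_rep z
  rw [gfun_eq, norm_mul, norm_ee, one_mul, Complex.norm_real, Real.norm_eq_abs,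
    abs_of_nonneg (bfun_nonneg _ _)]
  exact bfun_le _ _

lemma integrable_fourier (m : ℤ) : Integrable (fun z : AddCircle T => fourier m z) haarAddCircle :=
  (map_continuous (fourier m)).integrable_of_hasCompactSupport (HasCompactSupport.of_compactSpace _)

lemma fourierCoeff_gfun (L : ℕ) (Λ : ℤ) (τ : ℝ) (m : ℤ) :
    fourierCoeff (gfun T L Λ τ) m = ∑ p ∈ (idx L).filter (fun p => Λ + nu p = m), cf L τ p := by
  have e : gfun T L Λ τ = ∑ p ∈ idx L, fun z => cf L τ p * fourier (Λ + nu p) z := by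
    funext z; rw [Finset.sum_apply]; rfl
  rw [e, fourierCoeff.sum _ _ fun p _ => (integrable_fourier _).const_mul _, Finset.sum_apply,
    Finset.sum_filter]
  refine Finset.sum_congr rfl fun p _ => ?_
  rw [fourierCoeff.const_mul, fourierCoeff_fourier]
  by_cases h : Λ + nu p = m
  · rw [h, Pi.single_eq_same, mul_one, if_pos rfl]
  · rw [Pi.single_eq_of_ne (Ne.symm h), mul_zero, if_neg h]

lemma integral_norm_gfun (L : ℕ) (Λ : ℤ) (τ : ℝ) :
    ∫ z, ‖gfun T L Λ τ z‖ ∂haarAddCircle = 1 := by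
  have h1 : ∀ z : AddCircle T, ((‖gfun T L Λ τ z‖ : ℝ) : ℂ) = gfun T L 0 τ z := by
    intro z
    obtain ⟨y, rfl⟩ := exists_rep z
    rw [gfun_eq, gfun_eq, norm_mul, norm_ee, one_mul, Complex.norm_real, Real.norm_eq_abs,
      abs_of_nonneg (bfun_nonneg _ _)]
    simp [ee]
  have h2 : ((∫ z, ‖gfun T L Λ τ z‖ ∂haarAddCircle : ℝ) : ℂ) = fourierCoeff (gfun T L 0 τ) 0 := by
    rw [← integral_complex_ofReal]
    simp only [fourierCoeff, h1, neg_zero, fourier_zero, one_smul]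
  rw [fourierCoeff_gfun] at h2
  have h3 : (idx L).filter (fun p => (0 : ℤ) + nu p = 0)
      = range (2 ^ L) ×ˢ (range (deg L + 1)).diag := by
    ext ⟨l, a, b⟩
    simp only [idx, nu, mem_filter, mem_product, mem_diag, zero_add, sub_eq_zero, Nat.cast_inj]
    constructor
    · rintro ⟨⟨h, ha, -⟩, hab⟩; exact ⟨h, ha, hab⟩
    · rintro ⟨h, ha, hab⟩; exact ⟨⟨h, ha, hab ▸ ha⟩, hab⟩
  rw [h3, Finset.sum_congr rfl (g := fun _ => 1 / ((deg L : ℂ) + 1) / (2 : ℂ) ^ L) ?_] at h2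
  · rw [Finset.sum_const, Finset.card_product, Finset.diag_card, Finset.card_range,
      Finset.card_range, nsmul_eq_mul] at h2
    rw [Nat.cast_mul, Nat.cast_pow, Nat.cast_ofNat, Nat.cast_add, Nat.cast_one] at h2
    have hne : ((deg L : ℂ) + 1) ≠ 0 := Nat.cast_add_one_ne_zero _
    have h4 : (2 : ℂ) ^ L * ((deg L : ℂ) + 1) * (1 / ((deg L : ℂ) + 1) / (2 : ℂ) ^ L) = 1 := by
      field_simp
    rw [h4] at h2
    exact_mod_cast h2
  · intro p hp
    have hab : p.2.1 = p.2.2 := (Finset.mem_diag.1 (Finset.mem_product.1 hp).2).2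
    unfold cf nu
    simp [hab, ee]

end Vale.Agent.P091
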