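import Vale.Agent.P091.Params

/-!
P091: the divergent series.
-/

noncomputable section

namespace Vale.Agent.P091

open Finset Real MeasureTheory AddCircle Filter Topology
open scoped ENNReal

variable {T : ℝ} [hT : Fact (0 < T)]

/-- The `n`-th summand. -/
def piece (T : ℝ) (B : ℕ → ℕ) (n : ℕ) (z : AddCircle T) : ℂ :=
  (amp B (n / 8) : ℂ) * gfun T (lev B (n / 8)) (lam B n) (shf B n) z

/-- The sum of the series. -/
def total (T : ℝ) (B : ℕ → ℕ) (z : AddCircle T) : ℂ := ∑' n, piece T B n z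

/-- The tail of the absolute series after the first `K` groups. -/
def tailE (T : ℝ) (B : ℕ → ℕ) (K : ℕ) (z : AddCircle T) : ℝ≥0∞ :=
  ∑' n, ENNReal.ofReal ‖piece T B (n + 8 * K) z‖

variable (B : ℕ → ℕ)

lemma piece_continuous (n : ℕ) : Continuous (piece T B n) :=
  continuous_const.mul (gfun_continuous _ _ _)

lemma lintegral_piece (n : ℕ) :
    ∫⁻ z, ENNReal.ofReal ‖piece T B n z‖ ∂haarAddCircle = ENNReal.ofReal (amp B (n / 8)) := by
  have hc : Continuous fun z => ‖piece T B n z‖ := (piece_continuous B n).norm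
  rw [← ofReal_integral_eq_lintegral_ofReal
    (hc.integrable_of_hasCompactSupport (HasCompactSupport.of_compactSpace _))
    (ae_of_all _ fun z => norm_nonneg _)]
  congr 1
  simp only [piece, norm_mul, Complex.norm_real, Real.norm_eq_abs, abs_of_pos (amp_pos B _)]
  rw [integral_const_mul, integral_norm_gfun, mul_one]

lemma tailE_measurable (K : ℕ) : Measurable (tailE T B K) :=
  Measurable.tsum fun _ => (piece_continuous B _).norm.measurable.ennreal_ofReal

lemma lintegral_tailE (K : ℕ) :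
    ∫⁻ z, tailE T B K z ∂haarAddCircle ≤ ENNReal.ofReal (26 * amp B K) := by
  unfold tailE
  rw [lintegral_tsum fun n =>
    (piece_continuous B (n + 8 * K)).norm.measurable.ennreal_ofReal.aemeasurable]
  have hs : HasSum (fun n : ℕ => 2 * amp B K * ((12 : ℝ) / 13) ^ n) (26 * amp B K) := by
    have h := (hasSum_geometric_of_lt_one (r := (12 : ℝ) / 13) (by norm_num)
      (by norm_num)).mul_left (2 * amp B K)
    rw [show 2 * amp B K * (1 - (12 : ℝ) / 13)⁻¹ = 26 * amp B K by ring] at h
    exact h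
  have hA := (amp_pos B K).le
  rw [← hs.tsum_eq, ENNReal.ofReal_tsum_of_nonneg (fun n => by positivity) hs.summable]
  refine ENNReal.tsum_le_tsum fun n => ?_
  rw [lintegral_piece]
  exact ENNReal.ofReal_le_ofReal (amp_div_le B K n)

lemma ae_summable : ∀ᵐ z ∂(haarAddCircle : Measure (AddCircle T)),
    Summable fun n => ‖piece T B n z‖ := by
  filter_upwards [ae_lt_top (tailE_measurable (T := T) B 0)
    (ne_top_of_le_ne_top ENNReal.ofReal_ne_top (lintegral_tailE B 0))] with z hz
  have h := ENNReal.summable_toReal hz.ne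
  simpa [tailE, ENNReal.toReal_ofReal (norm_nonneg _)] using h

lemma lintegral_enorm_piece_tsum :
    ∑' n, ∫⁻ z, ‖piece T B n z‖ₑ ∂haarAddCircle ≠ ∞ := by
  have h : ∑' n, ∫⁻ z, ‖piece T B n z‖ₑ ∂haarAddCircle
      = ∫⁻ z, tailE T B 0 z ∂haarAddCircle := by
    unfold tailE
    rw [lintegral_tsum fun n =>
      (piece_continuous B (n + 8 * 0)).norm.measurable.ennreal_ofReal.aemeasurable]
    refine tsum_congr fun n => ?_
    simp only [mul_zero, add_zero, ofReal_norm]
  rw [h]
  exact ne_top_of_le_ne_top ENNReal.ofReal_ne_top (lintegral_tailE B 0)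

lemma total_aestronglyMeasurable :
    AEStronglyMeasurable (total T B) (haarAddCircle : Measure (AddCircle T)) := by
  refine aestronglyMeasurable_of_tendsto_ae atTop
    (f := fun m z => ∑ n ∈ range m, piece T B n z) (fun m => ?_) ?_
  · exact (continuous_finsetSum _ fun n _ => piece_continuous B n).aestronglyMeasurable
  · filter_upwards [ae_summable B] with z hz
    exact hz.of_norm.hasSum.tendsto_sum_nat

lemma total_integrable : Integrable (total T B) haarAddCircle := by
  refine ⟨total_aestronglyMeasurable B, ?_⟩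
  rw [hasFiniteIntegral_iff_enorm]
  refine lt_of_le_of_lt (lintegral_mono fun z => ?_)
    (lt_top_iff_ne_top.2 (ne_top_of_le_ne_top ENNReal.ofReal_ne_top (lintegral_tailE B 0)))
  refine (enorm_tsum_le_tsum_enorm).trans (le_of_eq ?_)
  unfold tailE
  simp only [mul_zero, add_zero, ofReal_norm]

lemma fourierCoeff_piece (n : ℕ) (m : ℤ) :
    fourierCoeff (piece T B n) m = (amp B (n / 8) : ℂ) *
      ∑ p ∈ (idx (lev B (n / 8))).filter (fun p => (lam B n : ℤ) + nu p = m),
        cf (lev B (n / 8)) (shf B n) p := by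
  unfold piece
  rw [fourierCoeff.const_mul, fourierCoeff_gfun]

lemma nu_abs_le {L : ℕ} {p : ℕ × (ℕ × ℕ)} (hp : p ∈ idx L) : |nu p| ≤ (deg L : ℤ) := by
  simp only [idx, Finset.mem_product, Finset.mem_range] at hp
  rw [abs_le]
  constructor <;> (unfold nu; omega)

lemma fourierCoeff_piece_eq_zero {n : ℕ} {m : ℤ}
    (h : (deg (lev B (n / 8)) : ℤ) < |m - lam B n|) : fourierCoeff (piece T B n) m = 0 := by
  rw [fourierCoeff_piece, Finset.filter_eq_empty_iff.2, Finset.sum_empty, mul_zero]
  intro p hp he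
  have := nu_abs_le hp
  rw [← he, add_sub_cancel_left] at h
  linarith

lemma fourierCoeff_total (m : ℤ) :
    fourierCoeff (total T B) m = ∑' n, fourierCoeff (piece T B n) m := by
  unfold fourierCoeff total
  simp only [smul_eq_mul, ← tsum_mul_left]
  refine integral_tsum (fun n => ?_) ?_
  · exact ((map_continuous (fourier (-m))).mul (piece_continuous B n)).aestronglyMeasurable
  · refine ne_top_of_le_ne_top (lintegral_enorm_piece_tsum (T := T) B) (le_of_eq ?_)
    refine tsum_congr fun n => lintegral_congr fun z => ?_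
    rw [enorm_mul, fourier_apply, ← ofReal_norm, Circle.norm_coe, ENNReal.ofReal_one, one_mul]

lemma coeff_nonpos {m : ℤ} (hm : m ≤ 0) : fourierCoeff (total T B) m = 0 := by
  rw [fourierCoeff_total, (?_ : (fun n => fourierCoeff (piece T B n) m) = fun _ => (0 : ℂ)),
    tsum_zero]
  funext n
  refine fourierCoeff_piece_eq_zero B ?_
  have := deg_lt_lam B n
  rw [abs_of_nonpos (by omega)]
  omega

lemma coeff_band {n : ℕ} {m : ℤ} (h : |m - lam B n| ≤ (deg (lev B (n / 8)) : ℤ)) :
    fourierCoeff (total T B) m = fourierCoeff (piece T B n) m := by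
  rw [fourierCoeff_total, tsum_eq_single n]
  intro k hk
  refine fourierCoeff_piece_eq_zero B ?_
  obtain ⟨h1, h2⟩ := abs_le.1 h
  rcases lt_or_gt_of_ne hk with hlt | hlt
  · have := lam_sep B hlt
    rw [abs_of_nonneg (by omega)]; omega
  · have := lam_sep B hlt
    rw [abs_of_nonpos (by omega)]; omega

/-- The symmetric partial sums. -/
def psum (f : AddCircle T → ℂ) (N : ℕ) (z : AddCircle T) : ℂ :=
  ∑ k ∈ Icc (-(N : ℤ)) N, fourierCoeff f k * fourier k z

lemma norm_band {n N : ℕ} (hN : N ≤ deg (lev B (n / 8))) (y : ℝ) :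
    amp B (n / 8) * ‖bsum (lev B (n / 8)) N (y - shf B n)‖
      ≤ ‖psum (total T B) (lam B n + N) ((T * y : ℝ) : AddCircle T)‖
        + ‖psum (total T B) (lam B n - N - 1) ((T * y : ℝ) : AddCircle T)‖ := by
  classical
  set z : AddCircle T := ((T * y : ℝ) : AddCircle T) with hz
  set Λ := lam B n with hΛ
  have hlam := deg_lt_lam B n
  set L := lev B (n / 8) with hL
  have hpos : ∀ K : ℕ, psum (total T B) K z
      = ∑ k ∈ Icc (1 : ℤ) K, fourierCoeff (total T B) k * fourier k z := by
    intro K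
    unfold psum
    refine (Finset.sum_subset (fun k hk => ?_) fun k hk hk' => ?_).symm
    · simp only [Finset.mem_Icc] at hk ⊢; omega
    · simp only [Finset.mem_Icc] at hk hk'
      rw [coeff_nonpos B (by omega), zero_mul]
  have hdiff : psum (total T B) (Λ + N) z - psum (total T B) (Λ - N - 1) z
      = ∑ k ∈ Icc ((Λ : ℤ) - N) (Λ + N), fourierCoeff (total T B) k * fourier k z := by
    rw [hpos, hpos, sub_eq_iff_eq_add, ← Finset.sum_union]
    · refine Finset.sum_congr ?_ fun _ _ => rfl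
      ext k
      simp only [Finset.mem_Icc, Finset.mem_union]
      push_cast
      omega
    · rw [Finset.disjoint_left]
      intro k hk hk'
      simp only [Finset.mem_Icc] at hk hk'
      omega
  have hband : ∑ k ∈ Icc ((Λ : ℤ) - N) (Λ + N), fourierCoeff (total T B) k * fourier k z
      = (amp B (n / 8) : ℂ) * (ee (((Λ : ℤ) : ℝ) * y) * bsum L N (y - shf B n)) := by
    rw [← sum_band_eq (T := T), ← hz,
      ← Finset.sum_fiberwise_of_maps_to (t := Icc ((Λ : ℤ) - N) (Λ + N))
        (g := fun p => (Λ : ℤ) + nu p) (fun p hp => ?_), Finset.mul_sum]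
    · refine Finset.sum_congr rfl fun k hk => ?_
      have hk' : |k - (Λ : ℤ)| ≤ (N : ℤ) := by
        rw [Finset.mem_Icc] at hk; rw [abs_le]; omega
      rw [coeff_band B (n := n) (hk'.trans (by exact_mod_cast hN)), fourierCoeff_piece, mul_assoc,
        Finset.sum_mul]
      congr 1
      have hset : ((idx L).filter fun p => |nu p| ≤ (N : ℤ)).filter (fun p => (Λ : ℤ) + nu p = k)
          = (idx L).filter fun p => (Λ : ℤ) + nu p = k := by
        rw [Finset.filter_filter]
        refine Finset.filter_congr fun p _ => ⟨fun h => h.2, fun h => ⟨?_, h⟩⟩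
        rw [← h, add_sub_cancel_left] at hk'; exact hk'
      rw [hset]
      refine Finset.sum_congr rfl fun p hp => ?_
      rw [(Finset.mem_filter.1 hp).2]
    · have := abs_le.1 (Finset.mem_filter.1 hp).2
      rw [Finset.mem_Icc]; omega
  have := norm_sub_le (psum (total T B) (Λ + N) z) (psum (total T B) (Λ - N - 1) z)
  rw [hdiff, hband, norm_mul, norm_mul, norm_ee, one_mul, Complex.norm_real, Real.norm_eq_abs,
    abs_of_pos (amp_pos B _)] at this
  exact this

lemma unbounded (z : AddCircle T) (C : ℝ) : ∃ N, C < ‖psum (total T B) N z‖ := by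
  obtain ⟨y, rfl⟩ := exists_rep z
  by_contra hcon
  push Not at hcon
  set k := ⌈40 * (2 * C + 30)⌉₊ with hk
  obtain ⟨i, N, hN, hb⟩ := block_cover (lev_pos B k) y
  have hd : (8 * k + (i : ℕ)) / 8 = k := by omega
  have hm : (8 * k + (i : ℕ)) % 8 = i := by omega
  have hb' : (lev B k : ℝ) / 40 - 30 ≤ ‖bsum (lev B k) N (y - shf B (8 * k + (i : ℕ)))‖ := by
    convert hb using 3
    unfold shf
    rw [hd, hm]
    ring
  have h := norm_band (T := T) B (n := 8 * k + (i : ℕ)) (N := N)
    (by rw [hd]; exact hN.trans (two_pow_ex_le_deg _)) y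
  rw [hd] at h
  have h1 := mul_le_mul_of_nonneg_left hb' (amp_pos B k).le
  have h2 := amp_mul_lev B k
  have h3 := amp_le_one B k
  have h4 : 40 * (2 * C + 30) ≤ (k : ℝ) := Nat.le_ceil _
  have h5 := hcon (lam B (8 * k + (i : ℕ)) + N)
  have h6 := hcon (lam B (8 * k + (i : ℕ)) - N - 1)
  rw [mul_sub, mul_div_assoc', h2] at h1
  linarith

lemma phi_integrable (φ : ℝ → ℝ) (hmono : MonotoneOn φ (Set.Ici 0)) (h0 : ∀ u, 0 ≤ u → 0 ≤ φ u)
    (hB : ∀ k u, top' B k ≤ u → φ u ≤ ((1 / 2 : ℝ) ^ k / (k + 2)) * (u * Real.sqrt (Real.log u))) :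
    Integrable (fun z => φ ‖total T B z‖) haarAddCircle := by
  classical
  set φ' : ℝ → ℝ := fun u => φ (max u 0) with hφ'
  have hmono' : Monotone φ' := fun a b hab =>
    hmono (le_max_right a 0) (le_max_right b 0) (max_le_max hab le_rfl)
  have heq : (fun z => φ ‖total T B z‖) = fun z => φ' ‖total T B z‖ := by
    funext z; rw [hφ']; simp only; rw [max_eq_left (norm_nonneg _)]
  rw [heq]
  refine ⟨(hmono'.measurable.comp_aemeasurable
    (total_aestronglyMeasurable (T := T) B).norm.aemeasurable).aestronglyMeasurable, ?_⟩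
  rw [hasFiniteIntegral_iff_enorm]
  set c : ℕ → ℝ := fun k => (1 / 2 : ℝ) ^ k / (k + 2) * (2 ^ 15 * (lev B (k + 1) : ℝ)) with hc
  have hc0 : ∀ k, 0 ≤ c k := fun k => by rw [hc]; positivity
  have hpt : ∀ᵐ z ∂(haarAddCircle : Measure (AddCircle T)), ‖φ' ‖total T B z‖‖ₑ ≤
      ENNReal.ofReal (φ (top' B 0))
        + ∑' k, ENNReal.ofReal (c k) * tailE T B (k + 1) z := by
    filter_upwards [ae_summable B] with z hz
    set g := ∑' n, ‖piece T B n z‖ with hg
    have hg0 : 0 ≤ g := tsum_nonneg fun n => norm_nonneg _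
    have hnorm : ‖total T B z‖ ≤ g := norm_tsum_le_tsum_norm hz
    have hφg : φ' ‖total T B z‖ ≤ φ g := by
      refine (hmono' hnorm).trans_eq ?_
      rw [hφ']; simp only; rw [max_eq_left hg0]
    have hnn : 0 ≤ φ' ‖total T B z‖ := h0 _ (le_max_right _ _)
    rw [← ofReal_norm, Real.norm_eq_abs, abs_of_nonneg hnn]
    refine (ENNReal.ofReal_le_ofReal hφg).trans ?_
    by_cases hsmall : g ≤ top' B 0
    · exact le_add_of_le_of_nonneg (ENNReal.ofReal_le_ofReal
        (hmono hg0 (le_trans hg0 hsmall) hsmall)) zero_le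
    · have hex : ∃ j, g ≤ top' B j :=
        ⟨⌈g⌉₊, (Nat.le_ceil g).trans (bound_le_top B _).2⟩
      obtain ⟨k, hk, hk'⟩ : ∃ k, top' B k < g ∧ g ≤ top' B (k + 1) := by
        have hne : Nat.find hex ≠ 0 := fun h => hsmall (h ▸ Nat.find_spec hex)
        obtain ⟨k, hk⟩ := Nat.exists_eq_succ_of_ne_zero hne
        refine ⟨k, not_le.1 (Nat.find_min hex (by omega)), ?_⟩
        have h := Nat.find_spec hex
        rwa [hk] at h
      refine le_add_of_nonneg_of_le zero_le (le_trans ?_ (ENNReal.le_tsum k))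
      unfold tailE
      rw [← ENNReal.ofReal_tsum_of_nonneg (fun n => norm_nonneg _)
        ((summable_nat_add_iff (8 * (k + 1))).2 hz), ← ENNReal.ofReal_mul (hc0 k)]
      refine ENNReal.ofReal_le_ofReal ?_
      set t := ∑' n, ‖piece T B (n + 8 * (k + 1)) z‖ with ht
      have hsplit : (∑ n ∈ range (8 * (k + 1)), ‖piece T B n z‖) + t = g :=
        hz.sum_add_tsum_nat_add _
      have hhead : 2 * (∑ n ∈ range (8 * (k + 1)), ‖piece T B n z‖) ≤ top' B k := by
        refine le_trans ?_ (two_sum_le_top B k)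
        refine mul_le_mul_of_nonneg_left (Finset.sum_le_sum fun n _ => ?_) (by norm_num)
        unfold piece
        rw [norm_mul, Complex.norm_real, Real.norm_eq_abs, abs_of_pos (amp_pos B _)]
        exact mul_le_mul_of_nonneg_left (norm_gfun_le _ _ _ _) (amp_pos B _).le
      have hg2 : g ≤ 2 * t := by linarith
      have hlog : Real.sqrt (Real.log g) ≤ 2 ^ 14 * (lev B (k + 1) : ℝ) := by
        refine le_trans (Real.sqrt_le_sqrt ?_) (sqrt_log_top (lev_pos B (k + 1)))
        exact Real.log_le_log (by linarith [one_le_top B k]) hk'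
      calc φ g ≤ (1 / 2 : ℝ) ^ k / (k + 2) * (g * Real.sqrt (Real.log g)) := hB k g hk.le
        _ ≤ (1 / 2 : ℝ) ^ k / (k + 2) * ((2 * t) * (2 ^ 14 * (lev B (k + 1) : ℝ))) :=
            mul_le_mul_of_nonneg_left
              (mul_le_mul hg2 hlog (Real.sqrt_nonneg _) (le_trans hg0 hg2)) (by positivity)
        _ = c k * t := by rw [hc]; ring
  refine lt_of_le_of_lt (lintegral_mono_ae hpt) ?_
  rw [lintegral_add_left measurable_const, lintegral_const, measure_univ, mul_one,
    lintegral_tsum fun k => ((tailE_measurable B (k + 1)).const_mul _).aemeasurable]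
  refine ENNReal.add_lt_top.2 ⟨ENNReal.ofReal_lt_top, ?_⟩
  have hterm : ∀ k, ∫⁻ z, ENNReal.ofReal (c k) * tailE T B (k + 1) z ∂haarAddCircle
      ≤ ENNReal.ofReal (2 ^ 20 * (1 / 2 : ℝ) ^ k) := by
    intro k
    rw [lintegral_const_mul _ (tailE_measurable B (k + 1))]
    refine (mul_le_mul' le_rfl (lintegral_tailE B (k + 1))).trans ?_
    rw [← ENNReal.ofReal_mul (hc0 k)]
    refine ENNReal.ofReal_le_ofReal ?_
    have h := amp_mul_lev B (k + 1)
    push_cast at h
    have e : c k * (26 * amp B (k + 1))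
        = (1 / 2 : ℝ) ^ k / (k + 2) * (2 ^ 15 * 26) * (amp B (k + 1) * (lev B (k + 1) : ℝ)) := by
      rw [hc]; ring
    have e2 : (1 / 2 : ℝ) ^ k / (k + 2) * (2 ^ 15 * 26) * ((k : ℝ) + 1 + 1)
        = 2 ^ 15 * 26 * (1 / 2 : ℝ) ^ k := by
      field_simp; ring
    rw [e, h, e2]
    exact mul_le_mul_of_nonneg_right (by norm_num) (by positivity)
  refine lt_of_le_of_lt (ENNReal.tsum_le_tsum hterm) ?_
  rw [← ENNReal.ofReal_tsum_of_nonneg (fun k => by positivity) (summable_geometric_two.mul_left _)]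
  exact ENNReal.ofReal_lt_top

/-- Everywhere divergence below `u * sqrt (log u)`. -/
theorem everywhere_unbounded (φ : ℝ → ℝ) (hmono : MonotoneOn φ (Set.Ici 0))
    (h0 : ∀ u, 0 ≤ u → 0 ≤ φ u) (ho : φ =o[atTop] fun u => u * Real.sqrt (Real.log u)) :
    ∃ f : AddCircle T → ℂ, Integrable f haarAddCircle ∧
      Integrable (fun z => φ ‖f z‖) haarAddCircle ∧
      ∀ z, ∀ C : ℝ, ∃ N, C < ‖psum f N z‖ := by
  have hk : ∀ k : ℕ, ∃ b : ℕ, ∀ u : ℝ, (b : ℝ) ≤ u →
      φ u ≤ ((1 / 2 : ℝ) ^ k / (k + 2)) * (u * Real.sqrt (Real.log u)) := by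
    intro k
    have hε : (0 : ℝ) < (1 / 2 : ℝ) ^ k / (k + 2) := by positivity
    obtain ⟨a, ha⟩ := Filter.eventually_atTop.1 (ho.bound hε)
    refine ⟨⌈max a 0⌉₊, fun u hu => ?_⟩
    have hu' : max a 0 ≤ u := (Nat.le_ceil _).trans hu
    have h := ha u ((le_max_left _ _).trans hu')
    have hu0 : 0 ≤ u := (le_max_right _ _).trans hu'
    rw [Real.norm_eq_abs, Real.norm_eq_abs, abs_mul, abs_of_nonneg hu0,
      abs_of_nonneg (Real.sqrt_nonneg _)] at h
    exact (le_abs_self _).trans h
  choose B hB using hk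
  exact ⟨total T B, total_integrable B,
    phi_integrable B φ hmono h0 (fun k u hu => hB k u ((bound_le_top B k).1.trans hu)),
    unbounded B⟩

end Vale.Agent.P091
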