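import Vale.Agent.P091.Circle

/-!
P091: the parameters of the series.
-/

noncomputable section

namespace Vale.Agent.P091

open Finset Real

/-- The heights `L k`, given the thresholds `B`. -/
def lev (B : ℕ → ℕ) : ℕ → ℕ
  | 0 => 16 + B 0
  | k + 1 => 4 * lev B k + 16 * (k + 2) + B (k + 1)

/-- The amplitude of the `k`-th group of blocks. -/
def amp (B : ℕ → ℕ) (k : ℕ) : ℝ := ((k : ℝ) + 1) / (lev B k : ℝ)

/-- The modulations. -/
def lam (B : ℕ → ℕ) : ℕ → ℕ
  | 0 => deg (lev B 0) + 1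
  | n + 1 => lam B n + deg (lev B (n / 8)) + deg (lev B ((n + 1) / 8)) + 1

/-- The translations. -/
def shf (B : ℕ → ℕ) (n : ℕ) : ℝ :=
  (((n % 8 % 4 : ℕ) : ℝ) / 4 - 1 / 8) * hh (lev B (n / 8)) + ((n % 8 / 4 : ℕ) : ℝ) / 2

/-- Upper height of the `k`-th group. -/
def top' (B : ℕ → ℕ) (k : ℕ) : ℝ := ((deg (lev B k) : ℝ) + 1) ^ 2

variable (B : ℕ → ℕ)

lemma lev_ge (k : ℕ) : 16 * (k + 1) + B k ≤ lev B k := by
  induction k with
  | zero => simp [lev]
  | succ k ih => rw [lev]; omega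

lemma lev_pos (k : ℕ) : 0 < lev B k := by have := lev_ge B k; omega

lemma amp_pos (k : ℕ) : 0 < amp B k := by
  have := lev_pos B k
  unfold amp; positivity

lemma amp_mul_lev (k : ℕ) : amp B k * (lev B k : ℝ) = (k : ℝ) + 1 := by
  have : (0 : ℝ) < (lev B k : ℝ) := Nat.cast_pos.2 (lev_pos B k)
  unfold amp; field_simp

lemma amp_le_one (k : ℕ) : amp B k ≤ 1 := by
  have h := lev_ge B k
  unfold amp
  rw [div_le_one (Nat.cast_pos.2 (lev_pos B k))]
  exact_mod_cast (by omega : k + 1 ≤ lev B k)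

lemma amp_succ_le (k : ℕ) : amp B (k + 1) ≤ amp B k / 2 := by
  have hk : (0 : ℝ) < (lev B k : ℝ) := Nat.cast_pos.2 (lev_pos B k)
  have hk1 : (0 : ℝ) < (lev B (k + 1) : ℝ) := Nat.cast_pos.2 (lev_pos B (k + 1))
  have h4 : 4 * (lev B k : ℝ) ≤ (lev B (k + 1) : ℝ) := by
    have : 4 * lev B k ≤ lev B (k + 1) := by rw [lev]; omega
    exact_mod_cast this
  unfold amp
  rw [div_div, div_le_div_iff₀ hk1 (by positivity)]
  push_cast
  have h := mul_le_mul_of_nonneg_left h4 (by positivity : (0 : ℝ) ≤ (k : ℝ) + 1)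
  have h' : (0 : ℝ) ≤ (k : ℝ) * (lev B k : ℝ) := by positivity
  linarith

lemma amp_add_le (K j : ℕ) : amp B (K + j) ≤ amp B K * (1 / 2) ^ j := by
  induction j with
  | zero => simp
  | succ j ih =>
    rw [← add_assoc, pow_succ, ← mul_assoc]
    linarith [amp_succ_le B (K + j)]

lemma amp_div_le (K n : ℕ) : amp B ((n + 8 * K) / 8) ≤ 2 * amp B K * (12 / 13) ^ n := by
  rw [show (n + 8 * K) / 8 = K + n / 8 by omega]
  refine (amp_add_le B K (n / 8)).trans ?_
  rw [mul_comm 2, mul_assoc]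
  refine mul_le_mul_of_nonneg_left ?_ (amp_pos B K).le
  conv_rhs => rw [← Nat.div_add_mod n 8, pow_add, pow_mul]
  have h1 : (1 / 2 : ℝ) ^ (n / 8) ≤ (((12 : ℝ) / 13) ^ 8) ^ (n / 8) :=
    pow_le_pow_left₀ (by norm_num) (by norm_num) _
  have h2 : (1 / 2 : ℝ) ≤ ((12 : ℝ) / 13) ^ (n % 8) :=
    le_trans (by norm_num)
      (pow_le_pow_of_le_one (by norm_num) (by norm_num) (by omega : n % 8 ≤ 8))
  calc (1 / 2 : ℝ) ^ (n / 8) ≤ (((12 : ℝ) / 13) ^ 8) ^ (n / 8) * 1 := by rw [mul_one]; exact h1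
    _ ≤ (((12 : ℝ) / 13) ^ 8) ^ (n / 8) * (2 * ((12 : ℝ) / 13) ^ (n % 8)) :=
        mul_le_mul_of_nonneg_left (by linarith) (by positivity)
    _ = _ := by ring

lemma lam_sep {n m : ℕ} (h : n < m) :
    lam B n + deg (lev B (n / 8)) + deg (lev B (m / 8)) < lam B m := by
  induction m with
  | zero => omega
  | succ m ih =>
    rw [lam]
    rcases Nat.lt_or_ge n m with h' | h'
    · have := ih h'; omega
    · have : n = m := by omega
      subst this; omega

lemma deg_lt_lam (n : ℕ) : deg (lev B (n / 8)) < lam B n := by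
  rcases n with _ | n
  · simp [lam]
  · rw [lam]; omega

lemma le_deg (L : ℕ) : L ≤ deg L := by
  have h1 : L ≤ ex' L := by rw [ex']; omega
  have h2 : ex' L ≤ 2 * ex' L + 2 := by omega
  rw [deg]
  exact (h1.trans h2).trans (Nat.lt_two_pow_self).le

lemma two_pow_ex_le_deg (L : ℕ) : 2 ^ ex' L ≤ deg L := by
  rw [deg]; exact Nat.pow_le_pow_right (by norm_num) (by omega)

lemma sqrt_log_top {L : ℕ} (hL : 1 ≤ L) :
    Real.sqrt (Real.log (((deg L : ℝ) + 1) ^ 2)) ≤ 2 ^ 14 * (L : ℝ) := by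
  have h2 : L ≤ L * L := Nat.le_mul_self L
  have hex : 2 * ex' L + 3 ≤ 2 ^ 27 * (L * L) := by
    have e : ex' L = 2 * L + 10 + 1048576 * (L * L) + 1048576 * L + L + 1 := by
      rw [ex', base, bk]; norm_num; ring
    rw [e]; norm_num; omega
  have hdeg : deg L + 1 ≤ 2 ^ (2 * ex' L + 3) := by
    rw [deg, pow_succ 2 (2 * ex' L + 2)]
    have := Nat.two_pow_pos (2 * ex' L + 2)
    omega
  have hdeg' : (deg L : ℝ) + 1 ≤ (2 : ℝ) ^ (2 * ex' L + 3) := by exact_mod_cast hdeg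
  have hex' : ((2 * ex' L + 3 : ℕ) : ℝ) ≤ 2 ^ 27 * ((L : ℝ) * L) := by exact_mod_cast hex
  rw [Real.log_pow, Real.sqrt_le_iff]
  refine ⟨by positivity, ?_⟩
  have h3 : Real.log ((deg L : ℝ) + 1) ≤ ((2 * ex' L + 3 : ℕ) : ℝ) * 1 := by
    refine (Real.log_le_log (by positivity) hdeg').trans ?_
    rw [Real.log_pow]
    exact mul_le_mul_of_nonneg_left (by linarith [Real.log_two_lt_d9]) (by positivity)
  push_cast at *
  calc (2 : ℝ) * Real.log ((deg L : ℝ) + 1) ≤ 2 * (2 ^ 27 * ((L : ℝ) * L)) := by linarith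
    _ = (2 ^ 14 * (L : ℝ)) ^ 2 := by ring

lemma two_sum_le_top (k : ℕ) :
    2 * ∑ n ∈ range (8 * (k + 1)), amp B (n / 8) * ((deg (lev B (n / 8)) : ℝ) + 1) ≤ top' B k := by
  have hmono : Monotone (lev B) := monotone_nat_of_le_succ fun j => by rw [lev]; omega
  have hdeg : Monotone deg := by
    intro a b hab
    rw [deg, deg, ex', ex', base, base, bk, bk]
    gcongr <;> norm_num
  have h : ∀ n ∈ range (8 * (k + 1)),
      amp B (n / 8) * ((deg (lev B (n / 8)) : ℝ) + 1) ≤ (deg (lev B k) : ℝ) + 1 := by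
    intro n hn
    have hle : n / 8 ≤ k := by have := Finset.mem_range.1 hn; omega
    have h1 : ((deg (lev B (n / 8)) : ℝ) + 1) ≤ (deg (lev B k) : ℝ) + 1 := by
      have := hdeg (hmono hle)
      have : ((deg (lev B (n / 8)) : ℕ) : ℝ) ≤ ((deg (lev B k) : ℕ) : ℝ) := Nat.cast_le.2 this
      linarith
    calc _ ≤ 1 * ((deg (lev B k) : ℝ) + 1) :=
          mul_le_mul (amp_le_one B _) h1 (by positivity) zero_le_one
      _ = _ := one_mul _
  have h2 : (16 : ℝ) * ((k : ℝ) + 1) ≤ (deg (lev B k) : ℝ) + 1 := by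
    have := lev_ge B k
    have := le_deg (lev B k)
    exact_mod_cast (by omega : 16 * (k + 1) ≤ deg (lev B k) + 1)
  calc _ ≤ 2 * ((8 * (k + 1) : ℕ) * ((deg (lev B k) : ℝ) + 1)) := by
        refine mul_le_mul_of_nonneg_left ((Finset.sum_le_sum h).trans ?_) (by norm_num)
        rw [Finset.sum_const, Finset.card_range, nsmul_eq_mul]
    _ = 16 * ((k : ℝ) + 1) * ((deg (lev B k) : ℝ) + 1) := by push_cast; ring
    _ ≤ _ := by
        unfold top'; rw [sq]
        exact mul_le_mul_of_nonneg_right h2 (by positivity)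

lemma one_le_top (k : ℕ) : (1 : ℝ) ≤ top' B k := by
  unfold top'
  exact one_le_pow₀ (by linarith [(Nat.cast_nonneg (deg (lev B k)) : (0 : ℝ) ≤ _)])

lemma bound_le_top (k : ℕ) : (B k : ℝ) ≤ top' B k ∧ (k : ℝ) ≤ top' B k := by
  have h1 : B k + k ≤ deg (lev B k) := by
    have := lev_ge B k; have := le_deg (lev B k); omega
  have h2 : ((B k : ℝ) + k) ≤ (deg (lev B k) : ℝ) := by exact_mod_cast h1
  have h3 : (deg (lev B k) : ℝ) ≤ top' B k := by
    unfold top'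
    have : (0 : ℝ) ≤ (deg (lev B k) : ℝ) := Nat.cast_nonneg _
    nlinarith
  have : (0 : ℝ) ≤ (k : ℝ) := k.cast_nonneg
  have : (0 : ℝ) ≤ (B k : ℝ) := (B k).cast_nonneg
  constructor <;> linarith

end Vale.Agent.P091
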