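import Mathlib

/-!
P091: sparse dyadic phases. For a height `L`, each `q < 2 ^ L` gets a frequency `freq L q` and each
`l < 2 ^ L` an offset `off L l`, so that `freq L q * off L l` is congruent modulo `1` to `1/2` times
the indicator of `l < q`, up to an error which is small in logarithmic average over `l`.
-/

noncomputable section

namespace Vale.Agent.P091

open Finset

/-- Number of buckets used at each level. -/
def bk (L : ℕ) : ℕ := 2 ^ 14 * (L + 1)

/-- Base exponent. -/
def base (L : ℕ) : ℕ := 2 * L + 10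

/-- The coordinate of the pair (level, bucket). -/
def pos (L e w : ℕ) : ℕ := (2 * e + w % 2) * (32 * bk L) + 16 * w

/-- The parent of `q` at level `e`. -/
def par (e q : ℕ) : ℕ := q / 2 ^ (e + 1)

/-- The bit of `q` at level `e`. -/
def bit' (e q : ℕ) : ℕ := q / 2 ^ e % 2

/-- The coordinate used by `q` at level `e`. -/
def coord (L e q : ℕ) : ℕ := base L + pos L e (par e q % bk L)

/-- The frequency attached to `q`. -/
def freq (L q : ℕ) : ℕ := ∑ e ∈ range L, if bit' e q = 1 then 2 ^ coord L e q else 0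

/-- The offset attached to `l`. -/
def off (L l : ℕ) : ℝ :=
  ∑ e ∈ range L, if bit' e l = 0 then ((2 : ℝ) ^ (coord L e l + 1))⁻¹ else 0

/-- Indicator of `l < q`. -/
def gt' (q l : ℕ) : ℕ := if l < q then 1 else 0

/-- The part of the indicator of `l < q` seen at level `e`. -/
def gtAt (e q l : ℕ) : ℕ :=
  if par e q = par e l ∧ bit' e q = 1 ∧ bit' e l = 0 then 1 else 0

lemma bk_pos (L : ℕ) : 0 < bk L := by unfold bk; positivity

lemma gt'_step (q l e : ℕ) :
    gt' (q / 2 ^ e) (l / 2 ^ e) = gtAt e q l + gt' (q / 2 ^ (e + 1)) (l / 2 ^ (e + 1)) := by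
  unfold gt' gtAt par bit'
  have hq : q / 2 ^ (e + 1) = q / 2 ^ e / 2 := by rw [pow_succ, Nat.div_div_eq_div_mul]
  have hl : l / 2 ^ (e + 1) = l / 2 ^ e / 2 := by rw [pow_succ, Nat.div_div_eq_div_mul]
  rw [hq, hl]
  generalize q / 2 ^ e = a
  generalize l / 2 ^ e = b
  split_ifs <;> omega

lemma gt'_eq_sum {L q l : ℕ} (hq : q < 2 ^ L) (hl : l < 2 ^ L) :
    gt' q l = ∑ e ∈ range L, gtAt e q l := by
  have key : ∀ m, gt' q l = (∑ e ∈ range m, gtAt e q l) + gt' (q / 2 ^ m) (l / 2 ^ m) := by
    intro m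
    induction m with
    | zero => simp
    | succ m ih => rw [Finset.sum_range_succ, add_assoc, ← gt'_step]; exact ih
  rw [key L, Nat.div_eq_of_lt hq, Nat.div_eq_of_lt hl]
  simp [gt']

lemma pos_lt {L e w : ℕ} (he : e < L) (hw : w < bk L) : pos L e w < 2 * L * (32 * bk L) := by
  unfold pos
  have h1 : 2 * e + w % 2 + 1 ≤ 2 * L := by omega
  have h2 : (2 * e + w % 2 + 1) * (32 * bk L) ≤ 2 * L * (32 * bk L) := Nat.mul_le_mul_right _ h1
  rw [add_mul, one_mul] at h2
  omega

lemma pos_sep {L e e' w w' : ℕ} (hw : w < bk L)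
    (h : 2 * e + w % 2 < 2 * e' + w' % 2) : pos L e w + 16 * bk L ≤ pos L e' w' := by
  unfold pos
  have h1 : (2 * e + w % 2 + 1) * (32 * bk L) ≤ (2 * e' + w' % 2) * (32 * bk L) :=
    Nat.mul_le_mul_right _ h
  rw [add_mul, one_mul] at h1
  omega

lemma bit'_le (e q : ℕ) : bit' e q ≤ 1 := by unfold bit'; omega

/-- Error attached to one level. -/
def lerr (L e q l : ℕ) : ℝ :=
  if par e q ≠ par e l ∧ par e q % 2 = par e l % 2 then
    ((2 : ℝ) ^ (16 * Nat.dist (par e q % bk L) (par e l % bk L)))⁻¹ else 0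

lemma lerr_nonneg (L e q l : ℕ) : 0 ≤ lerr L e q l := by
  unfold lerr; split_ifs <;> positivity

/-- Global small error. -/
def tiny (L : ℕ) : ℝ := ((2 : ℝ) ^ (16 * bk L))⁻¹

lemma pow_div_pow (a b : ℕ) :
    (a < b → (2 : ℝ) ^ a * ((2 : ℝ) ^ (b + 1))⁻¹ ≤ ((2 : ℝ) ^ (b - a))⁻¹) ∧
    (b < a → (2 : ℝ) ^ a * ((2 : ℝ) ^ (b + 1))⁻¹ = ((2 ^ (a - b - 1) : ℕ) : ℝ)) := by
  constructor
  · intro h
    obtain ⟨c, rfl⟩ := Nat.exists_eq_add_of_le h.le
    rw [Nat.add_sub_cancel_left, pow_succ, pow_add]
    field_simp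
    norm_num
  · intro h
    obtain ⟨c, rfl⟩ := Nat.exists_eq_add_of_le (Nat.succ_le_of_lt h)
    have : b + 1 + c - b - 1 = c := by omega
    rw [Nat.succ_eq_add_one, this, pow_add]
    field_simp
    push_cast
    ring

lemma pair_bound {L e e' q l : ℕ} (hbq : bit' e q = 1) (hbl : bit' e' l = 0) :
    ∃ m : ℤ, |(2 : ℝ) ^ coord L e q * ((2 : ℝ) ^ (coord L e' l + 1))⁻¹
      - (if e' = e then (gtAt e q l : ℝ) / 2 else 0) - m|
      ≤ tiny L + (if e' = e then lerr L e q l else 0) := by
  have hBpos := bk_pos L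
  have hBeven : 2 ∣ bk L := Dvd.dvd.mul_right (by norm_num) _
  set w := par e q % bk L with hw
  set w' := par e' l % bk L with hw'
  have hwlt : w < bk L := Nat.mod_lt _ hBpos
  have hw'lt : w' < bk L := Nat.mod_lt _ hBpos
  have hpar : w % 2 = par e q % 2 := Nat.mod_mod_of_dvd _ hBeven
  have hpar' : w' % 2 = par e' l % 2 := Nat.mod_mod_of_dvd _ hBeven
  have ht : 0 ≤ tiny L := by unfold tiny; positivity
  obtain ⟨hlt, hgt⟩ := pow_div_pow (coord L e q) (coord L e' l)
  have hle := lerr_nonneg L e q l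
  have hrhs : 0 ≤ tiny L + (if e' = e then lerr L e q l else 0) := by
    split_ifs <;> linarith
  rcases lt_trichotomy (2 * e + w % 2) (2 * e' + w' % 2) with hb | hb | hb
  · have hsep : pos L e w + 16 * bk L ≤ pos L e' w' := pos_sep hwlt hb
    have hzero : (if e' = e then (gtAt e q l : ℝ) / 2 else 0) = 0 := by
      split_ifs with he
      · subst he
        have : gtAt e' q l = 0 := by
          unfold gtAt; rw [if_neg]; rintro ⟨h1, -, -⟩; rw [hw, hw', h1] at hb; omega
        simp [this]
      · rfl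
    have hclt : coord L e q + 16 * bk L ≤ coord L e' l := by
      unfold coord; rw [← hw, ← hw']; omega
    refine ⟨0, ?_⟩
    rw [hzero, Int.cast_zero, sub_zero, sub_zero, abs_of_nonneg (by positivity)]
    refine (hlt (by omega)).trans (le_add_of_le_of_nonneg ?_ (by split_ifs <;> linarith))
    unfold tiny
    gcongr
    · norm_num
    · omega
  · have he : e' = e := by omega
    subst he
    simp only [if_true] at *
    by_cases hww : w = w'
    · have hc : coord L e' q = coord L e' l := by unfold coord; rw [← hw, ← hw', hww]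
      refine ⟨0, ?_⟩
      have hone : (2 : ℝ) ^ coord L e' q * ((2 : ℝ) ^ (coord L e' l + 1))⁻¹ = 1 / 2 := by
        rw [hc, pow_succ]; field_simp
      rw [hone, Int.cast_zero, sub_zero]
      by_cases hp : par e' q = par e' l
      · have : gtAt e' q l = 1 := by unfold gtAt; rw [if_pos ⟨hp, hbq, hbl⟩]
        rw [this]; simp; linarith
      · have h0 : gtAt e' q l = 0 := by unfold gtAt; rw [if_neg (fun h => hp h.1)]
        have h1 : lerr L e' q l = 1 := by
          unfold lerr
          rw [if_pos ⟨hp, by omega⟩, ← hw, ← hw', hww]; simp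
        rw [h0, h1]; simp; linarith
    · have hp : par e' q ≠ par e' l := fun h => hww (by rw [hw, hw', h])
      have h0 : gtAt e' q l = 0 := by unfold gtAt; rw [if_neg (fun h => hp h.1)]
      have h1 : lerr L e' q l = ((2 : ℝ) ^ (16 * Nat.dist w w'))⁻¹ := by
        unfold lerr; rw [if_pos ⟨hp, by omega⟩]
      rcases Nat.lt_or_gt_of_ne hww with hl' | hl'
      · have hcl : coord L e' q + 16 * (w' - w) = coord L e' l := by
          unfold coord pos; rw [← hw, ← hw', show w % 2 = w' % 2 by omega]; omega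
        refine ⟨0, ?_⟩
        rw [h0, h1, Nat.dist_eq_sub_of_le hl'.le]
        rw [show coord L e' l - coord L e' q = 16 * (w' - w) by omega] at hlt
        simp only [Nat.cast_zero, zero_div, sub_zero, Int.cast_zero]
        rw [abs_of_nonneg (by positivity)]
        exact (hlt (by omega)).trans (le_add_of_nonneg_left ht)
      · have hcl : coord L e' l < coord L e' q := by
          unfold coord pos; rw [← hw, ← hw', show w % 2 = w' % 2 by omega]; omega
        refine ⟨(2 ^ (coord L e' q - coord L e' l - 1) : ℕ), ?_⟩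
        rw [h0, hgt hcl]; push_cast; simp; linarith
  · have hsep : pos L e' w' + 16 * bk L ≤ pos L e w := pos_sep hw'lt hb
    have hzero : (if e' = e then (gtAt e q l : ℝ) / 2 else 0) = 0 := by
      split_ifs with he
      · subst he
        have : gtAt e' q l = 0 := by
          unfold gtAt; rw [if_neg]; rintro ⟨h1, -, -⟩; rw [hw, hw', h1] at hb; omega
        simp [this]
      · rfl
    have hclt : coord L e' l < coord L e q := by unfold coord; rw [← hw, ← hw']; omega
    refine ⟨(2 ^ (coord L e q - coord L e' l - 1) : ℕ), ?_⟩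
    rw [hzero, hgt hclt, sub_zero, Int.cast_natCast, sub_self, abs_zero]
    exact hrhs

/-- The phase error of the pair `(q, l)`. -/
def perr (L q l : ℕ) : ℝ := (L : ℝ) ^ 2 * tiny L + ∑ e ∈ range L, lerr L e q l

lemma phase {L q l : ℕ} (hq : q < 2 ^ L) (hl : l < 2 ^ L) :
    ∃ m : ℤ, |(freq L q : ℝ) * off L l - (gt' q l : ℝ) / 2 - m| ≤ perr L q l := by
  classical
  have key : ∀ p ∈ range L ×ˢ range L, ∃ m : ℤ,
      |(if bit' p.1 q = 1 then (2 : ℝ) ^ coord L p.1 q else 0) *
        (if bit' p.2 l = 0 then ((2 : ℝ) ^ (coord L p.2 l + 1))⁻¹ else 0)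
        - (if p.2 = p.1 then (gtAt p.1 q l : ℝ) / 2 else 0) - m|
      ≤ tiny L + (if p.2 = p.1 then lerr L p.1 q l else 0) := by
    rintro ⟨e, e'⟩ -
    dsimp only
    have hnonneg : 0 ≤ tiny L + (if e' = e then lerr L e q l else 0) := by
      have := lerr_nonneg L e q l
      have : 0 ≤ tiny L := by unfold tiny; positivity
      split_ifs <;> linarith
    by_cases h : bit' e q = 1 ∧ bit' e' l = 0
    · rw [if_pos h.1, if_pos h.2]; exact pair_bound h.1 h.2
    · refine ⟨0, ?_⟩
      have hz : (if e' = e then (gtAt e q l : ℝ) / 2 else 0) = 0 := by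
        split_ifs with he
        · subst he; simp [gtAt]; tauto
        · rfl
      have hp : (if bit' e q = 1 then (2 : ℝ) ^ coord L e q else 0) *
        (if bit' e' l = 0 then ((2 : ℝ) ^ (coord L e' l + 1))⁻¹ else 0) = 0 := by
        rcases not_and_or.1 h with h | h <;> simp [h]
      rw [hp, hz]; simpa using hnonneg
  choose! m hm using key
  refine ⟨∑ p ∈ range L ×ˢ range L, m p, ?_⟩
  have h1 : (freq L q : ℝ) * off L l = ∑ p ∈ range L ×ˢ range L,
      (if bit' p.1 q = 1 then (2 : ℝ) ^ coord L p.1 q else 0) *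
        (if bit' p.2 l = 0 then ((2 : ℝ) ^ (coord L p.2 l + 1))⁻¹ else 0) := by
    rw [Finset.sum_product]
    unfold freq off
    push_cast
    rw [Finset.sum_mul_sum]
  have h2 : (gt' q l : ℝ) / 2 = ∑ p ∈ range L ×ˢ range L,
      (if p.2 = p.1 then (gtAt p.1 q l : ℝ) / 2 else 0) := by
    rw [Finset.sum_product, gt'_eq_sum hq hl]
    push_cast
    rw [Finset.sum_div]
    refine Finset.sum_congr rfl fun e he => ?_
    simp [Finset.mem_range.1 he]
  have h3 : perr L q l = ∑ p ∈ range L ×ˢ range L,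
      (tiny L + (if p.2 = p.1 then lerr L p.1 q l else 0)) := by
    rw [Finset.sum_add_distrib,
      Finset.sum_product (f := fun p : ℕ × ℕ => if p.2 = p.1 then lerr L p.1 q l else 0)]
    unfold perr
    congr 1
    · simp [sq]
    · refine Finset.sum_congr rfl fun e he => ?_
      simp [Finset.mem_range.1 he]
  rw [h1, h2, h3, Int.cast_sum, ← Finset.sum_sub_distrib, ← Finset.sum_sub_distrib]
  exact (Finset.abs_sum_le_sum_abs _ _).trans (Finset.sum_le_sum hm)

lemma off_nonneg (L l : ℕ) : 0 ≤ off L l := by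
  unfold off; exact Finset.sum_nonneg fun e _ => by split_ifs <;> positivity

lemma off_le (L l : ℕ) : off L l ≤ (L : ℝ) * ((2 : ℝ) ^ base L)⁻¹ := by
  unfold off
  refine (Finset.sum_le_sum (g := fun _ => ((2 : ℝ) ^ base L)⁻¹) fun e _ => ?_).trans ?_
  · split_ifs
    · gcongr
      · norm_num
      · unfold coord; omega
    · positivity
  · simp

lemma two_pow_base_dvd_freq (L q : ℕ) : 2 ^ base L ∣ freq L q := by
  unfold freq
  refine Finset.dvd_sum fun e _ => ?_
  split_ifs
  · exact pow_dvd_pow 2 (by unfold coord; omega)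
  · simp

lemma freq_le (L q : ℕ) : freq L q ≤ 2 ^ (base L + 64 * L * bk L + L) := by
  unfold freq
  refine (Finset.sum_le_sum (g := fun _ => 2 ^ (base L + 64 * L * bk L)) fun e he => ?_).trans ?_
  · split_ifs
    · refine Nat.pow_le_pow_right (by norm_num) ?_
      have := pos_lt (Finset.mem_range.1 he) (Nat.mod_lt (par e q) (bk_pos L))
      have e2 : 2 * L * (32 * bk L) = 64 * L * bk L := by ring
      unfold coord; omega
    · positivity
  · rw [Finset.sum_const, Finset.card_range, smul_eq_mul, pow_add _ _ L, mul_comm]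
    exact Nat.mul_le_mul_left _ L.lt_two_pow_self.le

end Vale.Agent.P091
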